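import Crest.Agent.X262.Syz.Eqn2

/-!
# Row 262 (helper26): the tangent space of the cone at the generic point

* `der_aeval`, `euler`, `aeval_dual` : chain rule, Euler identity, dual numbers;
* `exists_der` : a tangent vector of the chart is a derivation of the function field;
* `rank_jac_add` : rank + number of blocks + dimension = number of variables.
-/

set_option autoImplicit false
set_option linter.unusedSectionVars false

open MvPolynomial
open scoped KaehlerDifferential

noncomputable section

namespace Crest.Agent.X262.Syz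

variable {k : Type} [Field k] {ι κ J : Type} [Fintype ι] [Fintype κ] [DecidableEq κ] [Fintype J]
  [DecidableEq J] {blk : ι → J}

/-- chain rule -/
theorem der_aeval {K M : Type*} [CommRing K] [Algebra k K] [AddCommGroup M] [Module K M]
    [Module k M] (D : Derivation k K M) (z : ι → K) (g : MvPolynomial ι k) :
    D (aeval z g) = ∑ i, aeval z (pderiv i g) • D (z i) := by
  classical
  induction g using MvPolynomial.induction_on with
  | C a => simp
  | add p q hp hq => simp only [map_add, hp, hq, add_smul, Finset.sum_add_distrib]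
  | mul_X p i hp =>
    simp only [map_mul, aeval_X, Derivation.leibniz, hp, pderiv_X, smul_eq_mul, map_add, add_smul,
      Finset.sum_add_distrib, Finset.smul_sum, mul_smul, Pi.single_apply]
    congr 1
    rw [Finset.sum_eq_single i] <;> simp +contextual [eq_comm]

/-- Euler identity, block by block -/
theorem euler {G : MvPolynomial ι k} {d : J → ℕ} (h : IsWeightedHomogeneous (mw blk) G d)
    {K : Type*} [CommRing K] [Algebra k K] (z : ι → K) (t : J → K) :
    ∑ i, aeval z (pderiv i G) * (t (blk i) * z i) = (∑ j, t j * d j) * aeval z G := by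
  have h1 : ∀ j, ∑ i, (mw blk i j : K) * (z i * aeval z (pderiv i G)) = d j * aeval z G := by
    intro j
    have h2 : IsWeightedHomogeneous (fun i => mw blk i j) G (d j) := fun s hs => by
      rw [← h hs]
      simp only [Finsupp.weight_apply, Finsupp.sum, Finset.sum_apply, Pi.smul_apply]
    simpa using congrArg (aeval z) h2.sum_weight_X_mul_pderiv
  simp only [Finset.sum_mul, mul_assoc, ← h1, Finset.mul_sum]
  rw [Finset.sum_comm]
  refine Finset.sum_congr rfl fun i _ => ?_
  rw [Finset.sum_eq_single (blk i)]
  · simp; ring
  · intro j _ hj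
    simp [hj]
  · simp

/-- evaluation at a point with values in the dual numbers -/
theorem aeval_dual {K : Type*} [CommRing K] [Algebra k K] (z v : ι → K) (g : MvPolynomial ι k) :
    aeval (fun i => (TrivSqZeroExt.inl (z i) + TrivSqZeroExt.inr (v i) : DualNumber K)) g =
      TrivSqZeroExt.inl (aeval z g) + TrivSqZeroExt.inr (∑ i, aeval z (pderiv i g) * v i) := by
  classical
  induction g using MvPolynomial.induction_on with
  | C a => ext <;> simp [TrivSqZeroExt.algebraMap_eq_inl']
  | add p q hp hq =>
    rw [map_add, hp, hq]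
    ext <;> simp [add_mul, Finset.sum_add_distrib]
  | mul_X p i hp =>
    rw [map_mul, hp, aeval_X]
    ext
    · simp
    · have e : ∑ x, aeval z p * aeval z (if i = x then (1 : MvPolynomial ι k) else 0) * v x =
          aeval z p * v i := by
        rw [Finset.sum_eq_single i] <;> simp +contextual [eq_comm]
      simp only [DualNumber.snd_mul, TrivSqZeroExt.fst_add, TrivSqZeroExt.fst_inl,
        TrivSqZeroExt.fst_inr, add_zero, TrivSqZeroExt.snd_add, TrivSqZeroExt.snd_inl,
        TrivSqZeroExt.snd_inr, zero_add, Derivation.leibniz, pderiv_X, smul_eq_mul, map_add,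
        map_mul, aeval_X, add_mul, Finset.sum_add_distrib, Pi.single_apply, Finset.sum_mul, e,
        zero_mul, add_right_inj]
      exact Finset.sum_congr rfl fun _ _ => by ring

variable {L : Type} [Field L] [Algebra k L]

/-- a tangent vector of the chart is a derivation of the function field -/
theorem exists_der {F : κ → MvPolynomial ι k} {y : ι → L}
    (hF : Ideal.span (Set.range F) = hI k blk y) {c : J → ι} (hc : ∀ j, blk (c j) = j)
    (hy : ∀ j, y (c j) = 1) [IsFractionRing (mchart k blk y c) L] {v : ι → L}
    (hv : (jac F y).mulVec v = 0) (hv0 : ∀ j, v (c j) = 0) :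
    ∃ D : Derivation k L L, ∀ i, D (y i) = v i := by
  have hy' : (fun i => y i / y (c (blk i))) = y := funext fun i => by rw [hy, div_one]
  obtain ⟨φ, hφ⟩ := exists_hom_of_on hF hc (fun j => by rw [hy]; exact one_ne_zero)
    (K := DualNumber L) (η := fun i => TrivSqZeroExt.inl (y i) + TrivSqZeroExt.inr (v i))
    (fun a => by
      have : ∑ i, aeval y (pderiv i (F a)) * v i = 0 := congrFun hv a
      rw [aeval_dual, aeval_eqn hF, this]; simp)
    (t := fun _ => 1) (fun j => by simp [hy, hv0])
  simp only [one_mul, aeval_dual] at hφ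
  have hfst : ∀ a, (φ a).fst = a := fun a => by
    obtain ⟨g, rfl⟩ := mpi_surj y c a
    rw [hφ, coe_mpi, hy']
    simp
  have hu : ∀ s : nonZeroDivisors (mchart k blk y c), IsUnit (φ s) := fun s => by
    rw [TrivSqZeroExt.isUnit_iff_isUnit_fst, hfst]
    exact IsUnit.mk0 _ fun h => nonZeroDivisors.coe_ne_zero s (Subtype.ext h)
  let σ : L →ₐ[k] DualNumber L := IsLocalization.liftAlgHom hu
  have hσ : ∀ a : mchart k blk y c, σ a = φ a := fun a => IsLocalization.lift_eq hu a
  have hσ1 : ∀ x, (σ x).fst = x := fun x => by
    have e : ((TrivSqZeroExt.fstHom k L L).comp σ : L →+* L) = RingHom.id L :=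
      IsLocalization.ringHom_ext (nonZeroDivisors (mchart k blk y c)) (RingHom.ext fun a => by
        change (σ a).fst = a
        rw [hσ, hfst])
    exact RingHom.congr_fun e x
  refine ⟨Derivation.mk' (((TrivSqZeroExt.sndHom L L).restrictScalars k).comp σ.toLinearMap)
    fun a b => ?_, fun i => ?_⟩
  · change (σ (a * b)).snd = a • (σ b).snd + b • (σ a).snd
    rw [map_mul, DualNumber.snd_mul, hσ1, hσ1, smul_eq_mul, smul_eq_mul, mul_comm b]
  · change (σ (y i)).snd = v i
    have e : y i = (mpi k blk y c (X i) : L) := by rw [coe_mpi, hy', aeval_X]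
    classical
    rw [e, hσ, hφ]
    simp [Pi.single_apply]

theorem hI_scale {t : J → L} (ht : ∀ j, t j ≠ 0) (y : ι → L) :
    hI k blk (fun i => t (blk i) * y i) = hI k blk y := by
  unfold hI
  congr 1
  ext G
  refine and_congr_right fun ⟨d, hd⟩ => ?_
  rw [aeval_scale t y hd, mul_eq_zero_iff_left
    (Finset.prod_ne_zero_iff.2 fun j _ => pow_ne_zero _ (ht j))]

theorem mchart_scale {t : J → L} (ht : ∀ j, t j ≠ 0) (y : ι → L) {c : J → ι}
    (hc : ∀ j, blk (c j) = j) : mchart k blk (fun i => t (blk i) * y i) c = mchart k blk y c := by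
  unfold mchart
  simp only [hc, mul_div_mul_left _ _ (ht _)]

/-- **the codimension** -/
theorem rank_jac_add {F : κ → MvPolynomial ι k} {m : κ → J → ℕ}
    (hm : ∀ a, IsWeightedHomogeneous (mw blk) (F a) (m a)) {y : ι → L}
    (hF : Ideal.span (Set.range F) = hI k blk y) {c : J → ι} (hc : ∀ j, blk (c j) = j)
    (hy : ∀ j, y (c j) ≠ 0) [hfr : IsFractionRing (mchart k blk y c) L] :
    (jac F y).rank + Fintype.card J + Module.finrank L Ω[L⁄k] = Fintype.card ι := by
  wlog h1 : ∀ j, y (c j) = 1 generalizing y
  · have ht : ∀ j, (y (c j))⁻¹ ≠ 0 := fun j => inv_ne_zero (hy j)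
    have h2 : ∀ j, (y (c (blk (c j))))⁻¹ * y (c j) = 1 := fun j => by
      rw [hc, inv_mul_cancel₀ (hy j)]
    rw [← rank_jac_scale hm ht y]
    exact this (y := fun i => (y (c (blk i)))⁻¹ * y i) (hF.trans (hI_scale ht y).symm)
      (fun j => by rw [h2]; exact one_ne_zero)
      (hfr := by rw [mchart_scale ht y hc]; exact hfr) h2
  have hy' : (fun i => y i / y (c (blk i))) = y := funext fun i => by rw [h1, div_one]
  let Φ : (Module.Dual L Ω[L⁄k] × (J → L)) →ₗ[L] (ι → L) :=
    { toFun := fun p i => p.1 (KaehlerDifferential.D k L (y i)) + p.2 (blk i) * y i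
      map_add' := fun p q => by ext i; simp; ring
      map_smul' := fun a p => by ext i; simp; ring }
  have hinj : Function.Injective Φ := by
    rw [injective_iff_map_eq_zero]
    rintro ⟨l, t⟩ h
    have h2 : ∀ i, l (KaehlerDifferential.D k L (y i)) + t (blk i) * y i = 0 := congrFun h
    have ht : t = 0 := funext fun j => by simpa [h1, hc] using h2 (c j)
    subst ht
    refine Prod.ext ?_ rfl
    refine LinearMap.ext_on_range (KaehlerDifferential.span_range_map_derivation_of_isLocalization
      k (mchart k blk y c) L (nonZeroDivisors _)) fun a => ?_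
    obtain ⟨g, rfl⟩ := mpi_surj y c a
    have e : algebraMap (mchart k blk y c) L (mpi k blk y c g) = aeval y g :=
      (coe_mpi y c g).trans (by rw [hy'])
    rw [Function.comp_apply, KaehlerDifferential.map_D, e, der_aeval]
    simp only [Pi.zero_apply, zero_mul, add_zero] at h2
    simp [h2]
  have hr : LinearMap.range Φ = LinearMap.ker (jac F y).mulVecLin := by
    have hE : ∀ t : J → L, (jac F y).mulVec (fun i => t (blk i) * y i) = 0 := fun t => by
      funext a
      have := euler (hm a) y t
      rw [aeval_eqn hF, mul_zero] at this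
      exact this
    apply le_antisymm
    · rintro _ ⟨⟨l, t⟩, rfl⟩
      have e : Φ (l, t) = (fun i => l (KaehlerDifferential.D k L (y i))) +
        fun i => t (blk i) * y i := rfl
      rw [LinearMap.mem_ker, e, map_add, Matrix.mulVecLin_apply, Matrix.mulVecLin_apply, hE,
        add_zero]
      funext a
      have := congrArg l (der_aeval (KaehlerDifferential.D k L) y (F a))
      rw [aeval_eqn hF, map_zero, map_zero, map_sum] at this
      simp only [map_smul, smul_eq_mul] at this
      exact this.symm
    · intro v hv
      obtain ⟨D, hD⟩ := exists_der hF hc h1 (v := v - fun i => v (c (blk i)) * y i)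
        (by rw [Matrix.mulVec_sub, hE fun j => v (c j), sub_zero]; exact hv)
        (fun j => by simp [hc, h1])
      refine ⟨(D.liftKaehlerDifferential, fun j => v (c j)), funext fun i => ?_⟩
      change D.liftKaehlerDifferential _ + v (c (blk i)) * y i = v i
      rw [Derivation.liftKaehlerDifferential_comp_D, hD]
      simp
  have hfin : Module.Finite L (Module.Dual L Ω[L⁄k] × (J → L)) := Module.Finite.of_injective Φ hinj
  have hfin2 : Module.Finite L (Module.Dual L Ω[L⁄k]) :=
    Module.Finite.of_surjective (LinearMap.fst L _ (J → L)) Prod.fst_surjective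
  have h3 := LinearMap.finrank_range_of_inj hinj
  have h4 := LinearMap.finrank_range_add_finrank_ker (jac F y).mulVecLin
  rw [hr, Module.finrank_prod, Subspace.dual_finrank_eq, Module.finrank_fintype_fun_eq_card] at h3
  rw [Module.finrank_fintype_fun_eq_card, h3] at h4
  rw [← h4, Matrix.rank]
  ring

end Crest.Agent.X262.Syz
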