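import Crest.Agent.X262.Syz.Cd
import Crest.Agent.X262.End36.Emb

/-!
# Row 262, road B (helper26): the normal vector of the concave end

* `nv_of` : from a jump of the rank of the Jacobian;
* `Rst.pre` : the restriction of an embedding to a subvariety; `nv_dv`;
* `sat_dv`, `loc_uT`, `nv_cv` : the divisor `C - (U + S)` is cut out by the `ξ_p`.
-/

set_option autoImplicit false
set_option linter.unusedSectionVars false

open MvPolynomial

noncomputable section

namespace Crest.Agent.X262.Syz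

open Crest.Agent.X277 Crest.Agent.X277.Lef Crest.Agent.X277.AN.G1 Crest.Agent.X277.BD
  Crest.Agent.X277.BD.Br
open Crest.Agent.X262.Coh Crest.Agent.X262.Gwb Crest.Agent.X262.Vb Crest.Agent.X262.End66
open Crest.Agent.X262.Conc78 (Cn)

section Gen

variable {J : Type} [Fintype J] [DecidableEq J] {io : J → Type} [∀ j, Fintype (io j)]
  [∀ j, DecidableEq (io j)] {A A' : Type} [Fintype A] [Fintype A'] {E : Type} [Field E]
  [Algebra ℂ E]

theorem jac_apply (T : Tgt io A) (y : Pnt io E) (w : Vr io → E) (a : A) :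
    T.jac y w a = ∑ v, pv y (pderiv v (T.F a)) * w v := rfl

theorem sum_pderiv_X (y : Pnt io E) (w : Vr io → E) (v : Vr io) :
    ∑ u, pv y (pderiv u (X v)) * w u = w v := by
  rw [Finset.sum_eq_single v]
  · simp [pv]
  · intro u _ hu
    simp [pv, pderiv_X_of_ne hu.symm]
  · simp

theorem sum_pderiv_mul (y : Pnt io E) (w : Vr io → E) (p q : MvPolynomial (Vr io) ℂ) :
    ∑ u, pv y (pderiv u (p * q)) * w u =
      pv y p * ∑ u, pv y (pderiv u q) * w u + pv y q * ∑ u, pv y (pderiv u p) * w u := by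
  simp only [pv, Derivation.leibniz, smul_eq_mul, map_add, map_mul, add_mul, mul_assoc,
    Finset.sum_add_distrib, Finset.mul_sum]

/-- the normal vector of the end from a jump of the rank -/
theorem nv_of (n : Cn io) (T : Tgt io A) (hu : ∀ b, Loc T (n.uT.F b))
    (hr : ∀ (E : Type) [Field E] [Algebra ℂ E] (y : Pnt io E), NZ y → (sum T n.xT).On y →
      Module.finrank E (T.Nm y) ≠ Module.finrank E ((sum T n.xT).Nm y)) : n.Nv T := by
  classical
  intro E _ _ y hy hT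
  have h1 : T.On y := fun a => hT (.inl a)
  have h2 : ∀ p, pv y (n.xi p) = 0 := fun p => hT (.inr p)
  obtain ⟨w, hw, p, hp⟩ : ∃ w, T.jac y w = 0 ∧ ∃ p, w ⟨n.jC, n.f (some p)⟩ ≠ 0 := by
    by_contra hn
    push Not at hn
    have e : LinearMap.ker (T.jac y) = LinearMap.ker ((sum T n.xT).jac y) :=
      Submodule.ext fun w => ⟨fun h => funext fun a => by
        rcases a with a | p
        exacts [congrFun h a, (sum_pderiv_X y w _).trans (hn w h p)],
        fun h => funext fun a => congrFun h (.inl a)⟩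
    have e1 := (T.jac y).finrank_range_add_finrank_ker
    have e2 := ((sum T n.xT).jac y).finrank_range_add_finrank_ker
    rw [← e, ← e1] at e2
    exact hr E y hy hT (Nat.add_right_cancel e2).symm
  have h3 : ∀ p q, w ⟨n.jC, n.f (some p)⟩ * pv y (n.tp q) =
      w ⟨n.jC, n.f (some q)⟩ * pv y (n.tp p) := fun p q => by
    have h4 : ∑ u, pv y (pderiv u (n.xi p * n.tp q - n.xi q * n.tp p)) * w u = 0 :=
      congrFun (ker_jac_le (F := T.F) (F' := n.uT.F) h1 (fun b => hu b E y hy h1) hw) (p, q)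
    simp only [map_sub, pv, sub_mul, Finset.sum_sub_distrib] at h4
    have h5 := sum_pderiv_mul y w (n.xi p) (n.tp q)
    have h6 := sum_pderiv_mul y w (n.xi q) (n.tp p)
    rw [h2, zero_mul, zero_add, Cn.xi, sum_pderiv_X] at h5 h6
    exact (mul_comm _ _).trans (h5.symm.trans ((sub_eq_zero.1 h4).trans (h6.trans (mul_comm _ _))))
  obtain ⟨a, ha⟩ := hy n.jU
  obtain ⟨b, hb⟩ := hy n.jS
  have h7 : pv y (n.tp (a, b)) ≠ 0 := by
    simpa [pv, Cn.tp] using ⟨ha, hb⟩
  have h8 : pv y (n.tp p) ≠ 0 := fun h0 =>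
    mul_ne_zero hp h7 (by rw [h3, h0, mul_zero])
  refine ⟨(pv y (n.tp p) / w ⟨n.jC, n.f (some p)⟩) • w, by rw [map_smul, hw, smul_zero],
    fun q => ?_⟩
  rw [Pi.smul_apply, smul_eq_mul, div_mul_eq_mul_div, mul_comm, ← h3, mul_div_cancel_left₀ _ hp]

end Gen

variable {X B : SV} {i : Hom X B} {m : Pre B} {y' : Pnt (PIo m) X.F}

theorem Rst.rs (h : Rst i m y') (k : m.J) : Rs i (m.T k) ⟨(m.T k).io, y' k⟩ := by
  obtain ⟨u, c, h1, h2⟩ := h.2 k
  exact ⟨Equiv.refl _, u, c, h1, h2⟩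

/-- the restriction of an embedding to a subvariety -/
def Rst.pre (h : Rst i m y') (hi : IsEmb i) : Pre X where
  J := m.J
  T k := ⟨(m.T k).io, y' k⟩
  reg k := End36.rs_reg (h.rs k) (h.1 k) (m.reg k)
  emb := End36.IsE.res hi m.emb (g := id) h.rs h.1

theorem Rst.gen (h : Rst i m y') (hi : IsEmb i) : Gen y' := gen_py (h.pre hi)

theorem Rst.smCh (h : Rst i m y') (hi : IsEmb i) : SmCh y' := smCh_py (h.pre hi)

theorem Rst.dim_add (h : Rst i m y') (hi : IsEmb i) : X.dim + cod y' = adim m.io :=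
  dim_add_cd (h.pre hi)

/-- the rank of the equations of a subvariety -/
theorem Rst.finrank_Nm (h : Rst i m y') (hi : IsEmb i) {A : Type} [Fintype A] {T : Tgt m.io A}
    (hT : Sat T y') {E : Type} [Field E] [Algebra ℂ E] {η : Pnt m.io E} (hη : NZ η)
    (h0 : T.On η) : X.dim + Module.finrank E (T.Nm η) = adim m.io := by
  rw [hT.finrank_Nm h.1 (h.gen hi) (h.smCh hi) hη h0, h.dim_add hi]

/-- **the normal vector of the end** -/
theorem nv_dv (hi : IsEmb i) (hd : X.dim ≠ B.dim) (n : Cn m.io) (h : Rst i m y')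
    (hu : ∀ b, pv (py m) (n.uT.F b) = 0) (hs : Sat (sum m.tgt n.xT) y') : n.Nv m.tgt := by
  refine nv_of n _ (fun b E _ _ η hη _ => (sat_pre m).loc (n.uT.hom b) (hu b) hη)
    fun E _ _ η hη hT e => hd ?_
  have h1 := h.finrank_Nm hi hs hη hT
  have h2 := dim_add_cod m
  rw [← e, finrank_Nm_pre m hη (Pre.on_iff.1 fun a => hT (.inl a))] at h1
  omega

/-- **the end is cut out by the coordinates `ξ_p`** -/
theorem sat_dv (n : Cn m.io) (h : Rst i m y')
    (cv : ∀ a b, (m.T n.jC).y (n.f (some (a, b))) = (m.T n.jU).y a * (m.T n.jS).y b)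
    (hD : IsDv i ((m.T n.jC).bd - ((m.T n.jU).bd + (m.T n.jS).bd))) :
    Sat (sum m.tgt n.xT) y' := by
  classical
  have eat : ∀ (x : B.Pt) (c : m.J → Vr (PIo m)), (∀ j, (c j).1 = j) →
      (∀ j, At (m.T j).bd x (fl (py m) (c j))) → ∃ p₀, At ((m.T n.jC).bd - ((m.T n.jU).bd +
        (m.T n.jS).bd)) x (aeval (afc m c) (n.xi p₀))⁻¹ ∧
        ∀ p, aeval (afc m c) (n.xi p) / aeval (afc m c) (n.xi p₀) ∈ (lp x).O := by
    intro x c hc hx
    obtain ⟨a, ha⟩ := exists_gen m x n.jU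
    obtain ⟨b, hb⟩ := exists_gen m x n.jS
    have e : ∀ p : n.KL, aeval (afc m c) (n.xi p) =
        (m.T n.jU).y p.1 * (m.T n.jS).y p.2 / fl (py m) (c n.jC) := fun p => by
      rw [← cv]
      exact aeval_X _ _
    refine ⟨(a, b), ?_, fun p => ?_⟩
    · rw [e, inv_div]
      exact (hx n.jC).sub (ha.add hb)
    · rw [e, e, div_div_div_cancel_right₀ (hx n.jC).ne, mul_div_mul_comm]
      exact mul_mem (div_mem_lp ha _) (div_mem_lp hb _)
  have key : ∀ (x' : X.Pt) {τ : B.F}, At ((m.T n.jC).bd - ((m.T n.jU).bd + (m.T n.jS).bd))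
      (i.map x') τ⁻¹ → ∀ f ∈ (lp (i.map x')).O, i.p.π f = 0 ↔ f / τ ∈ (lp (i.map x')).O := by
    intro x' τ h3 f hf
    obtain ⟨t, -, h1, h2⟩ := hD.eqn x'
    have h4 := h1.neg
    have h5 := h3.neg
    rw [inv_inv] at h4 h5
    exact (h2 f hf).trans ⟨h4.chg h5, h5.chg h4⟩
  refine sat_sub h (sat_pre m) (fun a => Ideal.subset_span ⟨.inl a, rfl⟩) ?_ fun x c hc hx h0 => ?_
  · rintro (a | p)
    · exact h.on (sat_pre m).on a
    · obtain ⟨x⟩ : Nonempty X.Pt := inferInstance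
      obtain ⟨c, hc, hx⟩ := exists_sec m (i.map x)
      obtain ⟨p₀, h1, h2⟩ := eat _ c hc hx
      exact (h.π_eq_zero hc hx (n.mh_xi p)).1
        ((key x h1 _ ((lp_of_mchart hx).le (aeval_afc_mem c _))).2 (h2 p))
  · obtain ⟨p₀, h1, -⟩ := eat x c hc hx
    have h2 : aeval (afc m c) (n.xi p₀) ≠ 0 := fun e => h1.ne (by rw [e, inv_zero])
    obtain ⟨x', rfl⟩ : x ∈ Set.range i.map := by
      by_contra hn
      have h3 := (hD.off x hn).ev_div_ne h1
      rw [div_inv_eq_mul, one_mul] at h3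
      exact h3 (h0 (.inr p₀))
    refine ⟨x', rfl, fun f hf hπ => ⟨Pi.single (.inr p₀) (f / aeval (afc m c) (n.xi p₀)),
      fun b => ?_, ?_⟩⟩
    · rw [Pi.single_apply]
      split_ifs
      exacts [(key x' h1 f hf).1 hπ, zero_mem _]
    · rw [Finset.sum_eq_single (.inr p₀) (fun b _ hb => by rw [Pi.single_eq_of_ne hb, zero_mul])
        (by simp), Pi.single_eq_same]
      exact (div_mul_cancel₀ _ h2).symm

theorem pv_uT (n : Cn m.io)
    (cv : ∀ a b, (m.T n.jC).y (n.f (some (a, b))) = (m.T n.jU).y a * (m.T n.jS).y b) (b) :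
    pv (py m) (n.uT.F b) = 0 := by
  have e : ∀ p, pv (py m) (n.xi p) = pv (py m) (n.tp p) := fun p => by
    simp only [pv, Cn.xi, Cn.tp, map_mul, aeval_X]
    exact cv p.1 p.2
  change aeval _ (n.xi b.1 * n.tp b.2 - n.xi b.2 * n.tp b.1) = 0
  rw [map_sub, map_mul, map_mul, sub_eq_zero]
  exact (congrArg₂ _ (e _) (e _).symm).trans (mul_comm _ _)

theorem loc_uT (n : Cn m.io)
    (cv : ∀ a b, (m.T n.jC).y (n.f (some (a, b))) = (m.T n.jU).y a * (m.T n.jS).y b) (b) :
    Loc m.tgt (n.uT.F b) := fun _ _ _ _ hη _ => (sat_pre m).loc (n.uT.hom b) (pv_uT n cv b) hη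

theorem nv_cv (n : Cn m.io) (h : Rst i m y')
    (cv : ∀ a b, (m.T n.jC).y (n.f (some (a, b))) = (m.T n.jU).y a * (m.T n.jS).y b)
    (hD : IsDv i ((m.T n.jC).bd - ((m.T n.jU).bd + (m.T n.jS).bd))) (hd : X.dim ≠ B.dim) :
    n.Nv m.tgt := nv_dv hD.emb hd n h (pv_uT n cv) (sat_dv n h cv hD)

end Crest.Agent.X262.Syz
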