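import Crest.Agent.X262.Syz.Sub
import Crest.Agent.X262.Gwb59.Defs

/-!
# Row 262, road B (helper26): `SmoStmt`, `GenStmt` and the targets of restrictions

* `smoStmt`, `genStmt`, `cut_pre`, `sat_pre`;
* `RsD.rst`, `RsD.on` : restriction of tuples; `same_hyp`, `rk_hyp` : hyperplane sections.
-/

set_option autoImplicit false
set_option linter.unusedSectionVars false

open MvPolynomial

noncomputable section

namespace Crest.Agent.X262.Syz

open Crest.Agent.X277 Crest.Agent.X277.BD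
open Crest.Agent.X262.Coh Crest.Agent.X262.Gwb Crest.Agent.X262.Vb Crest.Agent.X262.End66

variable {X Y : SV}

theorem cut_pre (m : Pre Y) : Cut m.tgt (py m) := m.tgt_isEq

theorem sat_pre (m : Pre Y) : Sat m.tgt (py m) := (cut_pre m).sat

/-- the target of an embedding is smooth -/
theorem smoStmt : SmoStmt := fun _ m => (cut_pre m.toPre).smo_emb m

/-- the generic point -/
theorem genStmt : GenStmt := fun _ m => (cut_pre m).genPt (nz_py m) (gen_py m)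

theorem dim_add_cod (m : Pre Y) : Y.dim + m.cod = adim m.io := (genStmt Y m).dm

theorem finrank_Nm_pre (m : Pre Y) {E : Type} [Field E] [Algebra ℂ E] {η : Pnt m.io E}
    (hη : NZ η) (hT : m.On η) : Module.finrank E (m.tgt.Nm η) = m.cod :=
  (cut_pre m).finrank_Nm (nz_py m) (gen_py m) (smCh_py m) hη (Pre.on_iff.2 hT)

variable {μ : Hom X Y} {n : Pre Y} {m : Pre X} {g : n.J → m.J}

theorem nz_rsD (D : RsD μ n m g) {E : Type} [Field E] {z : Pnt m.io E} (hz : NZ z) :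
    NZ (D.pt z) := fun k => by
  obtain ⟨i, hi⟩ := hz (g k)
  obtain ⟨i, rfl⟩ := (D.e k).surjective i
  exact ⟨i, hi⟩

theorem rst_rsD (D : RsD μ n m g) : Rst μ n (D.pt m.y) :=
  ⟨nz_rsD D m.nz_y, fun k => ⟨D.u k, D.c k, D.mem k, D.eq k⟩⟩

/-- the renumbering of a restriction along a bijection of the factors -/
def rxD {e : n.J ≃ m.J} (D : RsD μ n m e) : Rx n.io m.io := ⟨e, D.e⟩

theorem rxD_pt {e : n.J ≃ m.J} (D : RsD μ n m e) {E : Type} (z : Pnt m.io E) :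
    (rxD D).pt z = D.pt z := rfl

/-- **a smooth hyperplane section**: the two systems of equations agree -/
theorem sat_hyp_rx {e : n.J ≃ m.J} (D : RsD μ n m e) {k₀ : n.J} {i₀ : (n.T k₀).io}
    (h₀ : (n.T k₀).y i₀ ≠ 0) (hD : IsDv μ ((n.T k₀).bd - pr ℂ ((n.T k₀).y i₀))) :
    Sat ((rxD D).tgt (add n.tgt (mh_X k₀ i₀))) (py m) :=
  Sat.rx _ (sat_hyp (rst_rsD D) (sat_pre n) h₀ hD)

theorem same_hyp {e : n.J ≃ m.J} (D : RsD μ n m e) {k₀ : n.J} {i₀ : (n.T k₀).io}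
    (h₀ : (n.T k₀).y i₀ ≠ 0) (hD : IsDv μ ((n.T k₀).bd - pr ℂ ((n.T k₀).y i₀))) :
    Same ((rxD D).tgt (add n.tgt (mh_X k₀ i₀))) m.tgt := (sat_hyp_rx D h₀ hD).same (sat_pre m)

theorem finrank_Nm_hyp {e : n.J ≃ m.J} (D : RsD μ n m e) {k₀ : n.J} {i₀ : (n.T k₀).io}
    (h₀ : (n.T k₀).y i₀ ≠ 0) (hD : IsDv μ ((n.T k₀).bd - pr ℂ ((n.T k₀).y i₀))) {E : Type}
    [Field E] [Algebra ℂ E] {η : Pnt m.io E} (hη : NZ η)
    (hT : ((rxD D).tgt (add n.tgt (mh_X k₀ i₀))).On η) :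
    Module.finrank E (((rxD D).tgt (add n.tgt (mh_X k₀ i₀))).Nm η) = m.cod :=
  (sat_hyp_rx D h₀ hD).finrank_Nm (nz_py m) (gen_py m) (smCh_py m) hη hT

end Crest.Agent.X262.Syz
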