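import Crest.Agent.X262.Syz.Sat0

/-!
# Row 262 (helper26): the ideal of a product

* `ker_map_le` : the kernel of a tensor product of linear maps;
* `mem_sup_of_prod` : `I (Y × S) = I Y + I S` for multihomogeneous ideals.
-/

set_option autoImplicit false
set_option linter.unusedSectionVars false

open MvPolynomial
open scoped TensorProduct

noncomputable section

namespace Crest.Agent.X262.Syz

theorem ker_map_le {k V₁ V₂ W₁ W₂ : Type*} [Field k] [AddCommGroup V₁] [Module k V₁]
    [AddCommGroup V₂] [Module k V₂] [AddCommGroup W₁] [Module k W₁] [AddCommGroup W₂] [Module k W₂]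
    (f₁ : V₁ →ₗ[k] W₁) (f₂ : V₂ →ₗ[k] W₂) (N : Submodule k (V₁ ⊗[k] V₂))
    (h₁ : ∀ a b, f₁ a = 0 → a ⊗ₜ b ∈ N) (h₂ : ∀ a b, f₂ b = 0 → a ⊗ₜ b ∈ N) :
    LinearMap.ker (TensorProduct.map f₁ f₂) ≤ N := by
  have e : TensorProduct.map f₁ f₂ =
      (TensorProduct.map (LinearMap.range f₁).subtype (LinearMap.range f₂).subtype).comp
        (TensorProduct.map f₁.rangeRestrict f₂.rangeRestrict) := by
    rw [← TensorProduct.map_comp]
    rfl
  rw [e, LinearMap.ker_comp_of_ker_eq_bot _ (LinearMap.ker_eq_bot.2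
      (TensorProduct.map_injective_of_flat_flat _ _ Subtype.val_injective Subtype.val_injective)),
    TensorProduct.map_ker f₁.rangeRestrict.exact_subtype_ker_map f₁.surjective_rangeRestrict
      f₂.rangeRestrict.exact_subtype_ker_map f₂.surjective_rangeRestrict]
  refine sup_le ?_ ?_
  · rintro _ ⟨t, rfl⟩
    induction t using TensorProduct.induction_on with
    | zero => simp
    | tmul a b => exact h₂ a b (congrArg Subtype.val b.2)
    | add x y hx hy => rw [map_add]; exact add_mem hx hy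
  · rintro _ ⟨t, rfl⟩
    induction t using TensorProduct.induction_on with
    | zero => simp
    | tmul a b => exact h₁ a b (congrArg Subtype.val a.2)
    | add x y hx hy => rw [map_add]; exact add_mem hx hy

variable {k : Type} [Field k] {ι ι₁ ι₂ J J₁ J₂ : Type} [Fintype ι] [Fintype ι₁] [Fintype ι₂]
  [Fintype J] [DecidableEq J] [Fintype J₁] [DecidableEq J₁] [Fintype J₂] [DecidableEq J₂]

theorem hom_prod_X {b : ι → J} (s : ι → ℕ) :
    IsWeightedHomogeneous (mw b) (∏ i, X i ^ s i : MvPolynomial ι k) (∑ i, s i • mw b i) :=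
  IsWeightedHomogeneous.prod (w := mw b) Finset.univ (fun i => (X i ^ s i : MvPolynomial ι k))
    (fun i => s i • mw b i) fun i _ => (isWeightedHomogeneous_X k _ i).pow _

/-- **the ideal of a product** -/
theorem mem_sup_of_prod {b : ι → J} {b₁ : ι₁ → J₁} {b₂ : ι₂ → J₂} (ε : ι₁ ⊕ ι₂ ≃ ι)
    {e : J₁ ⊕ J₂ → J} (he : Function.Injective e) (h₁ : ∀ a, b (ε (.inl a)) = e (.inl (b₁ a)))
    (h₂ : ∀ a, b (ε (.inr a)) = e (.inr (b₂ a))) {K₁ K₂ L : Type} [Field K₁] [Algebra k K₁]
    [Field K₂] [Algebra k K₂] [Field L] [Algebra k L] {α₁ : K₁ →ₐ[k] L} {α₂ : K₂ →ₐ[k] L}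
    (hα : Function.Injective (Algebra.TensorProduct.productMap α₁ α₂)) {y₁ : ι₁ → K₁}
    {y₂ : ι₂ → K₂} {y : ι → L} (hy₁ : ∀ a, y (ε (.inl a)) = α₁ (y₁ a))
    (hy₂ : ∀ a, y (ε (.inr a)) = α₂ (y₂ a)) {q : MvPolynomial ι k} {d : J → ℕ}
    (hq : IsWeightedHomogeneous (mw b) q d) (h0 : aeval y q = 0) :
    q ∈ (hI k b₁ y₁).map (rename fun a => ε (.inl a) : _ →ₐ[k] _) ⊔
      (hI k b₂ y₂).map (rename fun a => ε (.inr a) : _ →ₐ[k] _) := by
  let V₁ := weightedHomogeneousSubmodule k (mw b₁) fun j => d (e (.inl j))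
  let V₂ := weightedHomogeneousSubmodule k (mw b₂) fun j => d (e (.inr j))
  let r₁ : MvPolynomial ι₁ k →ₐ[k] MvPolynomial ι k := rename fun a => ε (.inl a)
  let r₂ : MvPolynomial ι₂ k →ₐ[k] MvPolynomial ι k := rename fun a => ε (.inr a)
  let Φ : V₁ ⊗[k] V₂ →ₗ[k] MvPolynomial ι k :=
    (Algebra.TensorProduct.productMap r₁ r₂).toLinearMap.comp
      (TensorProduct.map V₁.subtype V₂.subtype)
  have hΦ : ∀ (g : V₁) (h : V₂), Φ (g ⊗ₜ h) = r₁ g * r₂ h := fun _ _ => rfl
  let f₁ : V₁ →ₗ[k] K₁ := (aeval y₁ : _ →ₐ[k] K₁).toLinearMap.comp V₁.subtype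
  let f₂ : V₂ →ₗ[k] K₂ := (aeval y₂ : _ →ₐ[k] K₂).toLinearMap.comp V₂.subtype
  obtain ⟨t, rfl⟩ : q ∈ LinearMap.range Φ := by
    clear h0
    induction hq using IsWeightedHomogeneous.induction_on with
    | zero => exact zero_mem _
    | add p q _ _ hp hq => exact add_mem hp hq
    | monomial s r hs =>
      have hd : ∀ j, d j = ∑ a, s (ε (.inl a)) * (if e (.inl (b₁ a)) = j then 1 else 0) +
          ∑ a, s (ε (.inr a)) * (if e (.inr (b₂ a)) = j then 1 else 0) := fun j => by
        rw [← hs, Finsupp.weight_apply, Finsupp.sum_fintype _ _ (by simp), Finset.sum_apply,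
          ← ε.sum_comp, Fintype.sum_sum_type]
        simp only [Pi.smul_apply, smul_eq_mul, Pi.single_apply, h₁, h₂, eq_comm]
      have m₁ : (∏ a, X a ^ s (ε (.inl a)) : MvPolynomial ι₁ k) ∈ V₁ := by
        have := hom_prod_X (k := k) (b := b₁) fun a => s (ε (.inl a))
        convert (mem_weightedHomogeneousSubmodule k _ _ _).2 this using 2
        funext j
        simp [hd, he.eq_iff, Pi.single_apply, eq_comm]
      have m₂ : (∏ a, X a ^ s (ε (.inr a)) : MvPolynomial ι₂ k) ∈ V₂ := by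
        have := hom_prod_X (k := k) (b := b₂) fun a => s (ε (.inr a))
        convert (mem_weightedHomogeneousSubmodule k _ _ _).2 this using 2
        funext j
        simp [hd, he.eq_iff, Pi.single_apply, eq_comm]
      refine ⟨r • (⟨_, m₁⟩ ⊗ₜ ⟨_, m₂⟩), ?_⟩
      rw [map_smul, hΦ, monomial_eq, Finsupp.prod_fintype _ _ (by simp), ← ε.prod_comp,
        Fintype.prod_sum_type, smul_eq_C_mul]
      simp only [r₁, r₂, map_prod, map_pow, rename_X]
  have key : ∀ t, aeval y (Φ t) =
      Algebra.TensorProduct.productMap α₁ α₂ (TensorProduct.map f₁ f₂ t) := fun t => by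
    induction t using TensorProduct.induction_on with
    | zero => simp
    | tmul g h =>
      rw [hΦ, map_mul, aeval_rename, aeval_rename, TensorProduct.map_tmul,
        Algebra.TensorProduct.productMap_apply_tmul]
      exact congrArg₂ (· * ·)
        ((congrArg (fun z => aeval z (g : MvPolynomial ι₁ k)) (funext hy₁)).trans
          (comp_aeval_apply _ α₁ _).symm)
        ((congrArg (fun z => aeval z (h : MvPolynomial ι₂ k)) (funext hy₂)).trans
          (comp_aeval_apply _ α₂ _).symm)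
    | add x y hx hy => simp only [map_add, hx, hy]
  have h3 : TensorProduct.map f₁ f₂ t = 0 := hα (by rw [← key, h0, map_zero])
  exact ker_map_le f₁ f₂ ((((hI k b₁ y₁).map r₁ ⊔ (hI k b₂ y₂).map r₂).restrictScalars k).comap Φ)
    (fun g h hg => Submodule.mem_sup_left (Ideal.mul_mem_right (r₂ h) _
      (Ideal.mem_map_of_mem r₁ (mem_hI g.2 hg))))
    (fun g h hh => Submodule.mem_sup_right (Ideal.mul_mem_left _ (r₁ g)
      (Ideal.mem_map_of_mem r₂ (mem_hI h.2 hh)))) h3

end Crest.Agent.X262.Syz
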