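import Crest.Agent.X262.Syz.Fin
import Crest.Agent.X262.Syz.Prod0

/-!
# Row 262, road B (helper26): equations of a product

* `sat_prod` : the equations of the two factors cut out the product;
* `sat_prod_pre` : the same for an embedding of `Y.prod S`.
-/

set_option autoImplicit false
set_option linter.unusedSectionVars false

open MvPolynomial

noncomputable section

namespace Crest.Agent.X262.Syz

open Crest.Agent.X277 Crest.Agent.X277.BD Crest.Agent.R274.Prod1_134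
open Crest.Agent.X262.Coh Crest.Agent.X262.Gwb Crest.Agent.X262.Vb Crest.Agent.X262.End66

section Gen

variable {J J₁ J₂ : Type} [Fintype J] [DecidableEq J] [Fintype J₁] [DecidableEq J₁] [Fintype J₂]
  [DecidableEq J₂] {io : J → Type} [∀ j, Fintype (io j)] [∀ j, DecidableEq (io j)]
  {io₁ : J₁ → Type} [∀ j, Fintype (io₁ j)] [∀ j, DecidableEq (io₁ j)] {io₂ : J₂ → Type}
  [∀ j, Fintype (io₂ j)] [∀ j, DecidableEq (io₂ j)] {A A₁ A₂ : Type} [Fintype A] [Fintype A₁]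
  [Fintype A₂]

/-- the variables of a subfamily of factors -/
abbrev subV (g : J₁ → J) (e : ∀ k, io₁ k ≃ io (g k)) : Vr io₁ → Vr io := fun v => ⟨g v.1, e v.1 v.2⟩

/-- the projection to a subfamily of factors -/
abbrev subP (g : J₁ → J) (e : ∀ k, io₁ k ≃ io (g k)) {E : Type} (y : Pnt io E) : Pnt io₁ E :=
  fun k i => y (g k) (e k i)

theorem subV_inj {g : J₁ → J} (hg : Function.Injective g) (e : ∀ k, io₁ k ≃ io (g k)) :
    Function.Injective (subV g e) := by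
  rintro ⟨k, i⟩ ⟨k', i'⟩ h
  obtain ⟨h1, h2⟩ := Sigma.mk.inj_iff.1 h
  obtain rfl : k = k' := hg h1
  exact congrArg (Sigma.mk k) ((e k).injective (eq_of_heq h2))

theorem nz_subP (g : J₁ → J) (e : ∀ k, io₁ k ≃ io (g k)) {E : Type} [Field E] {y : Pnt io E}
    (hy : NZ y) : NZ (subP g e y) := fun k => by
  obtain ⟨i, hi⟩ := hy (g k)
  obtain ⟨i, rfl⟩ := (e k).surjective i
  exact ⟨i, hi⟩

theorem pv_subV (g : J₁ → J) (e : ∀ k, io₁ k ≃ io (g k)) {E : Type} [Field E] [Algebra ℂ E]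
    (y : Pnt io E) (q : MvPolynomial (Vr io₁) ℂ) :
    pv y (rename (subV g e) q) = pv (subP g e y) q := aeval_rename _ _ _

theorem loc_map {K₁ : Type} [Field K₁] [Algebra ℂ K₁] {T₁ : Tgt io₁ A₁} {y₁ : Pnt io₁ K₁}
    (h : Sat T₁ y₁) (g : J₁ → J) (e : ∀ k, io₁ k ≃ io (g k)) {I : Ideal (MvPolynomial (Vr io) ℂ)}
    (hI₁ : ∀ a, rename (subV g e) (T₁.F a) ∈ I) {E : Type} [Field E] [Algebra ℂ E] {η : Pnt io E}
    (hη : NZ η) {q : MvPolynomial (Vr io) ℂ}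
    (hq : q ∈ (hI ℂ Sigma.fst (fl y₁)).map (rename (subV g e) : _ →ₐ[ℂ] _)) :
    ∃ s, pv η s ≠ 0 ∧ s * q ∈ I := by
  induction hq using Submodule.span_induction with
  | mem x hx =>
    obtain ⟨G, hG, rfl⟩ := hx
    obtain ⟨s, h0, h1⟩ := h.loc_hI (nz_subP g e hη) hG
    refine ⟨rename (subV g e) s, by rwa [pv_subV], ?_⟩
    have := Ideal.mem_map_of_mem (rename (subV g e) : MvPolynomial (Vr io₁) ℂ →ₐ[ℂ] _) h1
    rw [map_mul, Ideal.map_span] at this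
    refine (Ideal.span_le.2 ?_ : _ ≤ I) this
    rintro _ ⟨_, ⟨a, rfl⟩, rfl⟩
    exact hI₁ a
  | zero => exact ⟨1, by simp [pv], by simp⟩
  | add a b _ _ ha hb =>
    obtain ⟨s, h0, h1⟩ := ha
    obtain ⟨s', h0', h1'⟩ := hb
    refine ⟨s * s', by rw [pv, map_mul]; exact mul_ne_zero h0 h0', ?_⟩
    have := add_mem (I.mul_mem_left s' h1) (I.mul_mem_left s h1')
    convert this using 1
    ring
  | smul a b _ hb =>
    obtain ⟨s, h0, h1⟩ := hb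
    exact ⟨s, h0, by rw [smul_eq_mul, mul_left_comm]; exact I.mul_mem_left _ h1⟩

/-- **the equations of the factors cut out the product** -/
theorem sat_prod {g₁ : J₁ → J} (i₁ : Function.Injective g₁) (e₁ : ∀ k, io₁ k ≃ io (g₁ k))
    {g₂ : J₂ → J} (i₂ : Function.Injective g₂) (e₂ : ∀ k, io₂ k ≃ io (g₂ k))
    (dis : ∀ k k', g₁ k ≠ g₂ k') (cov : ∀ j, (∃ k, g₁ k = j) ∨ ∃ k, g₂ k = j)
    {K₁ K₂ L : Type} [Field K₁] [Algebra ℂ K₁] [Field K₂] [Algebra ℂ K₂] [Field L] [Algebra ℂ L]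
    {α₁ : K₁ →ₐ[ℂ] L} {α₂ : K₂ →ₐ[ℂ] L}
    (hα : Function.Injective (Algebra.TensorProduct.productMap α₁ α₂)) {y₁ : Pnt io₁ K₁}
    {y₂ : Pnt io₂ K₂} {y : Pnt io L} {c : J → L} (hc : ∀ j, c j ≠ 0)
    (hy₁ : ∀ k i, y (g₁ k) (e₁ k i) = c (g₁ k) * α₁ (y₁ k i))
    (hy₂ : ∀ k i, y (g₂ k) (e₂ k i) = c (g₂ k) * α₂ (y₂ k i)) {T₁ : Tgt io₁ A₁} (h₁ : Sat T₁ y₁)
    {T₂ : Tgt io₂ A₂} (h₂ : Sat T₂ y₂) {T : Tgt io A} (hT : T.On y)
    (m₁ : ∀ a, rename (subV g₁ e₁) (T₁.F a) ∈ Ideal.span (Set.range T.F))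
    (m₂ : ∀ a, rename (subV g₂ e₂) (T₂.F a) ∈ Ideal.span (Set.range T.F)) : Sat T y := by
  have hb : Function.Bijective (Sum.elim (subV g₁ e₁) (subV g₂ e₂)) := by
    refine ⟨Function.Injective.sumElim (subV_inj i₁ e₁) (subV_inj i₂ e₂) fun a b h =>
      dis _ _ (congrArg Sigma.fst h), ?_⟩
    rintro ⟨j, i⟩
    rcases cov j with ⟨k, rfl⟩ | ⟨k, rfl⟩
    · exact ⟨.inl ⟨k, (e₁ k).symm i⟩, by simp⟩
    · exact ⟨.inr ⟨k, (e₂ k).symm i⟩, by simp⟩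
  refine sat_of_loc hT fun q κ hq h0 η hη _ => ?_
  have h3 := mem_sup_of_prod (b := Sigma.fst) (b₁ := Sigma.fst) (b₂ := Sigma.fst)
    (Equiv.ofBijective _ hb) (e := Sum.elim g₁ g₂) (Function.Injective.sumElim i₁ i₂ dis)
    (fun _ => rfl) (fun _ => rfl) hα (y₁ := fl y₁) (y₂ := fl y₂)
    (y := fun v => (c v.1)⁻¹ * fl y v)
    (fun v => by
      change (c (g₁ v.1))⁻¹ * y (g₁ v.1) (e₁ v.1 v.2) = _
      rw [hy₁, inv_mul_cancel_left₀ (hc _)])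
    (fun v => by
      change (c (g₂ v.1))⁻¹ * y (g₂ v.1) (e₂ v.1 v.2) = _
      rw [hy₂, inv_mul_cancel_left₀ (hc _)]) hq
    (by rw [aeval_scale (fun j => (c j)⁻¹) (fl y) hq, show aeval (fl y) q = 0 from h0, mul_zero])
  obtain ⟨a, ha, b, hb, rfl⟩ := Submodule.mem_sup.1 h3
  obtain ⟨s, h4, h5⟩ := loc_map h₁ g₁ e₁ m₁ hη ha
  obtain ⟨s', h4', h5'⟩ := loc_map h₂ g₂ e₂ m₂ hη hb
  refine ⟨s * s', by rw [pv, map_mul]; exact mul_ne_zero h4 h4', ?_⟩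
  have := add_mem (Ideal.mul_mem_left _ s' h5) (Ideal.mul_mem_left _ s h5')
  convert this using 1
  ring

/-- scaling of the coordinates -/
theorem Sat.scale {K : Type} [Field K] [Algebra ℂ K] {T : Tgt io A} {y : Pnt io K} (h : Sat T y)
    {c : J → K} (hc : ∀ j, c j ≠ 0) : Sat T fun j i => c j * y j i := by
  have key : ∀ {q : MvPolynomial (Vr io) ℂ} {κ : J → ℕ}, MH q κ →
      (pv (fun j i => c j * y j i) q = 0 ↔ pv y q = 0) := fun hq =>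
    (congrArg (· = 0) (aeval_scale c (fl y) hq)).to_iff.trans (mul_eq_zero_iff_left
      (Finset.prod_ne_zero_iff.2 fun j _ => pow_ne_zero _ (hc j)))
  exact ⟨fun a => (key (T.hom a)).2 (h.on a), fun q κ hq h0 => h.2 q κ hq ((key hq).1 h0)⟩

end Gen

variable {X Y S : SV}

/-- along a dominant morphism the restricted coordinates are the images, up to scalars -/
theorem rsD_hom {μ : Hom X Y} {n : Pre Y} {m : Pre X} {g : n.J → m.J} (D : RsD μ n m g)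
    {α : Y.F →ₐ[ℂ] X.F} (hα : μ.p = AN.G1.Plc.ofHom α) (k : n.J) :
    ∃ c : X.F, c ≠ 0 ∧ ∀ i, m.y (g k) (D.e k i) = c * α (n.y k i) := by
  have h1 : ∀ i, m.y (g k) (D.e k i) = D.c k / α (D.u k) * α (n.y k i) := fun i => by
    rw [D.eq, hα]
    change _ * α _ = _
    rw [map_div₀]
    ring
  refine ⟨_, fun h0 => ?_, h1⟩
  obtain ⟨i, hi⟩ := m.nz_y (g k)
  obtain ⟨i, rfl⟩ := (D.e k).surjective i
  exact hi (by rw [h1, h0, zero_mul])

/-- **the equations of an embedded product** -/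
theorem sat_prod_pre {m : Pre Y} {n : Pre S} {p : Pre (Y.prod S)} {g₁ : m.J → p.J}
    (i₁ : Function.Injective g₁) (D₁ : RsD (fst Y S) m p g₁) {g₂ : n.J → p.J}
    (i₂ : Function.Injective g₂) (D₂ : RsD (snd Y S) n p g₂) (dis : ∀ k k', g₁ k ≠ g₂ k')
    (cov : ∀ j, (∃ k, g₁ k = j) ∨ ∃ k, g₂ k = j) {A A₁ A₂ : Type} [Fintype A] [Fintype A₁]
    [Fintype A₂] {T₁ : Tgt m.io A₁} (h₁ : Sat T₁ (py m)) {T₂ : Tgt n.io A₂} (h₂ : Sat T₂ (py n))
    {T : Tgt p.io A} (hT : T.On (py p))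
    (m₁ : ∀ a, rename (subV g₁ D₁.e) (T₁.F a) ∈ Ideal.span (Set.range T.F))
    (m₂ : ∀ a, rename (subV g₂ D₂.e) (T₂.F a) ∈ Ideal.span (Set.range T.F)) : Sat T (py p) := by
  classical
  choose c₁ h3 h4 using rsD_hom D₁ rfl
  choose c₂ h5 h6 using rsD_hom D₂ rfl
  let c : p.J → (Y.prod S).F := Function.extend (Sum.elim g₁ g₂) (Sum.elim c₁ c₂) 1
  have hi := Function.Injective.sumElim i₁ i₂ dis
  have e₁ : ∀ k, c (g₁ k) = c₁ k := fun k => hi.extend_apply _ _ (.inl k)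
  have e₂ : ∀ k, c (g₂ k) = c₂ k := fun k => hi.extend_apply _ _ (.inr k)
  refine sat_prod i₁ D₁.e i₂ D₂.e dis cov (isPF ℂ Y.F S.F).inj (c := c) (fun j => ?_)
    (fun k i => by rw [e₁]; exact h4 k i) (fun k i => by rw [e₂]; exact h6 k i) h₁ h₂ hT m₁ m₂
  rcases cov j with ⟨k, rfl⟩ | ⟨k, rfl⟩
  · rw [e₁]; exact h3 k
  · rw [e₂]; exact h5 k

/-- the equations of the factors vanish on the product -/
theorem pv_subV_rsD {μ : Hom X Y} {n : Pre Y} {m : Pre X} {g : n.J → m.J} (D : RsD μ n m g)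
    {A : Type} [Fintype A] {T : Tgt n.io A} (hT : T.On (py n)) (a : A) :
    pv (py m) (rename (subV g D.e) (T.F a)) = 0 :=
  (pv_subV _ _ _ _).trans ((rst_rsD D).on hT a)

end Crest.Agent.X262.Syz
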