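import Crest.Agent.X262.Syz.Prod
import Crest.Agent.X262.Conc78.Defs

/-!
# Row 262, road B (helper26): equations of the concave end

* `sat_pt` : a coordinate point times a projective space;
* `sat_cd` : the equations of `Y × S × point`.
-/

set_option autoImplicit false
set_option linter.unusedSectionVars false

open MvPolynomial

noncomputable section

namespace Crest.Agent.X262.Syz

open Crest.Agent.X277 Crest.Agent.X277.BD Crest.Agent.R274.Prod1_134
open Crest.Agent.X262.Coh Crest.Agent.X262.Gwb Crest.Agent.X262.Vb Crest.Agent.X262.End66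

theorem hom_aeval {σ τ M N : Type} [AddCommMonoid M] [AddCommMonoid N] {w : σ → M} {w' : τ → N}
    (ψ : M →+ N) {f : σ → MvPolynomial τ ℂ} (hf : ∀ i, (f i).IsWeightedHomogeneous w' (ψ (w i)))
    {G : MvPolynomial σ ℂ} {κ : M} (h : G.IsWeightedHomogeneous w κ) :
    (aeval f G).IsWeightedHomogeneous w' (ψ κ) := by
  induction h using IsWeightedHomogeneous.induction_on with
  | zero => rw [map_zero]; exact isWeightedHomogeneous_zero _ _ _
  | add p q _ _ hp hq => rw [map_add]; exact hp.add hq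
  | monomial d r hr =>
    rw [aeval_monomial, ← hr, Finsupp.weight_apply, Finsupp.sum, map_sum]
    refine IsWeightedHomogeneous.C_mul (IsWeightedHomogeneous.prod _ _ _ fun i _ => ?_) r
    rw [map_nsmul]
    exact (hf i).pow _

/-- a coordinate point times a projective space -/
theorem sat_pt {io : Option Unit → Type} [∀ j, Fintype (io j)] [∀ j, DecidableEq (io j)]
    {P : Type} [Fintype P] (f : Option P ≃ io none) {K : Type} [Field K] [Algebra ℂ K]
    {y : Pnt io K} (h0 : y none (f none) = 1) (h1 : ∀ p, y none (f (some p)) = 0)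
    (h2 : ∀ (m : ℕ) (q : MvPolynomial (io (some ())) ℂ), q.IsHomogeneous m →
      aeval (y (some ())) q = 0 → q = 0) :
    Sat (⟨fun p => X ⟨none, f (some p)⟩, fun _ => Pi.single none 1, fun _ => mh_X _ _⟩ : Tgt io P)
      y := by
  refine ⟨fun p => (aeval_X _ _).trans (h1 p), fun q κ hq hy c => ⟨0, ?_⟩⟩
  rw [pow_zero, one_mul, ← Ideal.Quotient.eq_zero_iff_mem]
  let φ : Vr io → MvPolynomial (io (some ())) ℂ := fun v =>
    match v with
    | ⟨none, i⟩ => if i = f none then 1 else 0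
    | ⟨some (), i⟩ => X i
  have h3 : aeval φ q = 0 := by
    refine h2 (κ (some ())) _ (hom_aeval (Pi.evalAddMonoidHom (fun _ => ℕ) (some ())) ?_ hq) ?_
    · rintro ⟨_ | ⟨⟨⟩⟩, i⟩
      · simp only [φ]
        split_ifs
        exacts [isWeightedHomogeneous_one _ _, isWeightedHomogeneous_zero _ _ _]
      · exact isWeightedHomogeneous_X _ _ _
    · rw [comp_aeval_apply, ← hy]
      congr 2
      funext ⟨j, i⟩
      rcases j with _ | ⟨⟨⟩⟩
      · obtain ⟨_ | p, rfl⟩ := f.surjective i <;> simp [φ, h0, h1]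
      · exact aeval_X _ _
  set I := Ideal.span (Set.range fun p => (X ⟨none, f (some p)⟩ : MvPolynomial (Vr io) ℂ))
  let ρ : MvPolynomial (io (some ())) ℂ →ₐ[ℂ] MvPolynomial (Vr io) ℂ ⧸ I :=
    aeval fun i => Ideal.Quotient.mk I (X ⟨some (), i⟩)
  have h4 := aeval_scale (k := ℂ) (blk := Sigma.fst)
    (fun j => j.elim (Ideal.Quotient.mk I (X ⟨none, f none⟩)) fun _ => 1) (fun v => ρ (φ v)) hq
  rw [← comp_aeval_apply φ ρ, h3, map_zero, mul_zero] at h4
  rw [← h4]
  change Ideal.Quotient.mkₐ ℂ I q = _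
  rw [← aeval_X_left_apply q, comp_aeval_apply, aeval_X_left_apply]
  congr 2
  funext ⟨j, i⟩
  rcases j with _ | ⟨⟨⟩⟩
  · obtain ⟨_ | p, rfl⟩ := f.surjective i
    · simp [φ]
    · simp only [φ, f.apply_eq_iff_eq, reduceCtorEq, if_false, map_zero, mul_zero]
      exact Ideal.Quotient.eq_zero_iff_mem.2 (Ideal.subset_span ⟨p, rfl⟩)
  · simp [φ, ρ]

/-- **the equations of the concave end** -/
theorem sat_cd {Y S : SV} (hS : IsProj S) (n : Pre Y) {J : Type} [Fintype J] [DecidableEq J]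
    {io : J → Type} [∀ j, Fintype (io j)] [∀ j, DecidableEq (io j)] (r : Conc78.Cd n.io io)
    {y' : Pnt io (Y.prod S).F} (hz : NZ y') (h1 : Rst (fst Y S) n (r.pr y'))
    (eS : Fin (S.P.N + 1) ≃ io (r.e (some none))) (u : S.F) (c : (Y.prod S).F)
    (h2 : ∀ b, y' _ (eS b) = c * (snd Y S).p.π (S.P.y b / u))
    (h3 : ∀ p, y' _ (r.f (some p)) = 0) : Sat (sum (r.tgt n.tgt) r.cn.xT) y' := by
  let α := pα ℂ Y.F S.F
  let β := pβ ℂ Y.F S.F
  choose u₁ c₁ _ h4 using h1.2
  let g₂ : Option Unit → J := fun o => r.e (o.map fun _ => none)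
  let y₂ : Pnt (fun o => io (g₂ o)) S.F := fun o =>
    match o with
    | none => fun i => if i = r.f none then 1 else 0
    | some () => fun i => S.P.y (eS.symm i)
  let d : J → (Y.prod S).F := fun j =>
    (r.e.symm j).elim (y' _ (r.f none)) fun o => o.elim (c / β u) fun k => c₁ k / α (u₁ k)
  have e₁ : ∀ k i, y' (r.e (some (some k))) (r.ei k i) =
      d (r.e (some (some k))) * α (py n k i) := fun k i => by
    refine (h4 k i).trans ?_
    simp only [d, Equiv.symm_apply_apply, Option.elim]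
    change _ * α _ = _
    rw [map_div₀]
    ring
  have e₂ : ∀ o i, y' (g₂ o) i = d (g₂ o) * β (y₂ o i) := by
    rintro (_ | ⟨⟨⟩⟩) i
    · obtain ⟨_ | p, rfl⟩ := r.f.surjective i
      · simp [d, g₂, y₂]
      · simp [y₂, g₂, h3]
    · obtain ⟨b, rfl⟩ := eS.surjective i
      refine (h2 b).trans ?_
      simp only [d, g₂, y₂, Option.map, Equiv.symm_apply_apply, Option.elim]
      change _ * β _ = _
      rw [map_div₀]
      ring
  refine sat_prod (g₁ := fun k => r.e (some (some k))) (fun _ _ h => by simpa using h) r.ei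
    (g₂ := g₂) ?_ (fun _ => Equiv.refl _) ?_ ?_ (isPF ℂ Y.F S.F).inj (c := d) ?_ e₁ e₂ (sat_pre n)
    (sat_pt (io := fun o => io (g₂ o)) r.f (by simp [y₂]) (fun p => by simp [y₂])
      fun m q hq h0 => ?_) ?_ (fun a => Ideal.subset_span ⟨.inl a, rfl⟩)
    fun p => Ideal.subset_span ⟨.inr p, (rename_X (subV g₂ fun _ => Equiv.refl _)
      ⟨none, r.f (some p)⟩).symm⟩
  · rintro (_ | ⟨⟨⟩⟩) (_ | ⟨⟨⟩⟩) h <;> simp [g₂] at h ⊢
  · rintro k (_ | ⟨⟨⟩⟩) <;> simp [g₂]
  · intro j
    obtain ⟨_ | _ | k, rfl⟩ := r.e.surjective j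
    exacts [.inr ⟨none, rfl⟩, .inr ⟨some (), rfl⟩, .inl ⟨k, rfl⟩]
  · intro j h0
    obtain ⟨i, hi⟩ := hz j
    obtain ⟨_ | _ | k, rfl⟩ := r.e.surjective j
    · exact hi ((e₂ none i).trans (mul_eq_zero_of_left h0 _))
    · exact hi ((e₂ (some ()) i).trans (mul_eq_zero_of_left h0 _))
    · obtain ⟨i, rfl⟩ := (r.ei k).surjective i
      exact hi ((e₁ k i).trans (mul_eq_zero_of_left h0 _))
  · exact rename_injective _ eS.symm.injective
      ((hS m _ hq.rename_isHomogeneous ((aeval_rename _ _ _).trans h0)).trans (map_zero _).symm)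
  · rintro (a | p)
    · exact (r.on_tgt _ _).2 (h1.on (sat_pre n).on) a
    · exact (aeval_X _ _).trans (h3 p)

end Crest.Agent.X262.Syz
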