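import Crest.Agent.X262.Syz.Syz
import Crest.Agent.X262.Brg.Jac

/-!
# Row 262 (helper26): from formal smoothness to `SmAt`

* `li_iff_minor`, `SmAt.generize`, `SmAt.ext` : `SmAt` passes to generisations;
* `KeyAt F η` : `h F j ≡ ∑ ∂ᵢ F j δᵢ` modulo `(F)²`, `h(η) ≠ 0`, `δᵢ ∈ (F)`;
* `KeyAt.smAt` (Nakayama), `key_of_smooth`, `smAt_of_smooth` (affine Jacobian criterion).
-/

set_option autoImplicit false
set_option linter.unusedSectionVars false

open MvPolynomial

noncomputable section

namespace Crest.Agent.X262.Syz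

/-- rows are independent iff a maximal minor is nonzero -/
theorem li_iff_minor {K m n : Type*} [Field K] [Fintype m] [DecidableEq m] [Fintype n]
    (A : m → n → K) :
    LinearIndependent K A ↔ ∃ p : m → n, (Matrix.of fun a b => A a (p b)).det ≠ 0 := by
  classical
  constructor
  · intro h
    have h1 : (Matrix.of A).rank = Fintype.card m := LinearIndependent.rank_matrix h
    have h2 : LinearMap.range (Matrix.of A).mulVecLin = ⊤ :=
      Submodule.eq_top_of_finrank_eq (by rw [Module.finrank_fintype_fun_eq_card]; exact h1)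
    obtain ⟨B, hB⟩ := Matrix.mulVec_surjective_iff_exists_right_inverse.1
      (LinearMap.range_eq_top.1 h2)
    by_contra hn
    push Not at hn
    have h3 : (Matrix.of A * B).det = ∑ p : m → n,
        (Matrix.of fun a b => A a (p b)).det * ∏ i, B (p i) i := by
      simp only [Matrix.det_apply', Matrix.mul_apply, Finset.prod_univ_sum, Finset.mul_sum,
        Fintype.piFinset_univ, Finset.sum_mul, Matrix.of_apply, Finset.prod_mul_distrib, mul_assoc]
      rw [Finset.sum_comm]
    rw [hB, Matrix.det_one] at h3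
    simp [hn] at h3
  · rintro ⟨p, hp⟩
    have := Matrix.linearIndependent_rows_of_det_ne_zero hp
    exact LinearIndependent.of_comp (LinearMap.funLeft K K p) this

variable {k : Type} [Field k] {ι κ : Type} [Fintype ι] [Fintype κ] [DecidableEq κ]
  {F : κ → MvPolynomial ι k}

/-- `SmAt` passes to a generisation -/
theorem SmAt.generize {K L : Type*} [Field K] [Algebra k K] [Field L] [Algebra k L] {η : ι → K}
    {y : ι → L} (h : ∀ g : MvPolynomial ι k, aeval y g = 0 → aeval η g = 0) {S : Finset κ}
    (hS : SmAt F η S) : SmAt F y S := by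
  obtain ⟨hli, g, hg0, hg⟩ := hS
  refine ⟨?_, g, fun e => hg0 (h g e), hg⟩
  obtain ⟨p, hp⟩ := (li_iff_minor _).1 hli
  refine (li_iff_minor _).2 ⟨p, fun e => hp ?_⟩
  have h1 := h (Matrix.of fun a b : S => pderiv (p b) (F a)).det (by rw [AlgHom.map_det]; exact e)
  rwa [AlgHom.map_det] at h1

/-- `SmAt` is stable under extension of the field -/
theorem SmAt.ext {K L : Type*} [Field K] [Algebra k K] [Field L] [Algebra k L] (φ : K →ₐ[k] L)
    {η : ι → K} {S : Finset κ} (hS : SmAt F η S) : SmAt F (fun i => φ (η i)) S :=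
  hS.generize fun g hg => by
    rw [← comp_aeval_apply] at hg
    exact (map_eq_zero φ).1 hg

/-- determinant trick -/
theorem nak {R M : Type*} [CommRing R] [AddCommGroup M] [Module R M] {I N : Submodule R M}
    (hI : I.FG) (p : Ideal R) (H : R) (h : ∀ x ∈ I, H • x ∈ N ⊔ p • I) :
    ∃ n : ℕ, ∃ a ∈ p, ∀ x ∈ I, (H ^ n + a) • x ∈ N := by
  let Q := I.map N.mkQ
  have : Module.Finite R Q := Module.Finite.iff_fg.2 (hI.map _)
  obtain ⟨q, hq, -, hc, h0⟩ :=
    LinearMap.exists_monic_and_natDegree_eq_and_coeff_mem_pow_and_aeval_eq_zero R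
      (algebraMap R (Module.End R Q) H) p (by
        rintro _ ⟨⟨_, x, hx, rfl⟩, rfl⟩
        rw [Submodule.mem_smul_top_iff, ← Submodule.map_smul'']
        obtain ⟨a, ha, b, hb, e⟩ := Submodule.mem_sup.1 (h x hx)
        refine ⟨b, hb, ?_⟩
        have : N.mkQ a = 0 := (Submodule.Quotient.mk_eq_zero N).2 ha
        simp only [Module.algebraMap_end_apply, SetLike.val_smul, ← map_smul, ← e, map_add, this,
          zero_add])
  refine ⟨q.natDegree, ∑ i ∈ Finset.range q.natDegree, q.coeff i * H ^ i,
    Ideal.sum_mem _ fun i hi => Ideal.mul_mem_right _ _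
      (Ideal.pow_le_self (Nat.sub_ne_zero_of_lt (Finset.mem_range.1 hi)) (hc i)), fun x hx => ?_⟩
  have e : H ^ q.natDegree + ∑ i ∈ Finset.range q.natDegree, q.coeff i * H ^ i = q.eval H := by
    rw [Polynomial.eval_eq_sum_range, Finset.sum_range_succ, hq.coeff_natDegree, one_mul, add_comm]
  rw [Polynomial.aeval_algebraMap_apply, Polynomial.coe_aeval_eq_eval] at h0
  have h1 := congrArg (fun f : Module.End R Q => (f ⟨N.mkQ x, x, hx, rfl⟩ : M ⧸ N)) h0
  simp only [Module.algebraMap_end_apply, SetLike.val_smul, LinearMap.zero_apply,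
    ZeroMemClass.coe_zero, ← map_smul] at h1
  rw [e]
  exact (Submodule.Quotient.mk_eq_zero N).1 h1

/-- the conormal sequence splits near `η` -/
def KeyAt (F : κ → MvPolynomial ι k) {K : Type*} [Field K] [Algebra k K] (η : ι → K) : Prop :=
  ∃ h : MvPolynomial ι k, aeval η h ≠ 0 ∧ ∃ δ : ι → MvPolynomial ι k,
    (∀ i, δ i ∈ Ideal.span (Set.range F)) ∧
      ∀ j, h * F j - ∑ i, pderiv i (F j) * δ i ∈ Ideal.span (Set.range F) ^ 2

theorem key_span {h : MvPolynomial ι k} {δ : ι → MvPolynomial ι k}
    (hδ : ∀ i, δ i ∈ Ideal.span (Set.range F))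
    (hF : ∀ j, h * F j - ∑ i, pderiv i (F j) * δ i ∈ Ideal.span (Set.range F) ^ 2)
    {G : MvPolynomial ι k} (hG : G ∈ Ideal.span (Set.range F)) :
    h * G - ∑ i, pderiv i G * δ i ∈ Ideal.span (Set.range F) ^ 2 := by
  induction hG using Submodule.span_induction with
  | mem x hx => obtain ⟨j, rfl⟩ := hx; exact hF j
  | zero => simp
  | add x y _ _ hx hy =>
    have := add_mem hx hy
    simp only [map_add, add_mul, Finset.sum_add_distrib]
    convert this using 1
    ring
  | smul a x hx0 hx =>
    have h2 : x * ∑ i, pderiv i a * δ i ∈ Ideal.span (Set.range F) ^ 2 := by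
      rw [pow_two]
      exact Ideal.mul_mem_mul hx0 (Ideal.sum_mem _ fun i _ => Ideal.mul_mem_left _ _ (hδ i))
    have := sub_mem (Ideal.mul_mem_left _ a hx) h2
    simp only [smul_eq_mul, Derivation.leibniz, add_mul, Finset.sum_add_distrib, mul_assoc,
      ← Finset.mul_sum]
    convert this using 1
    ring

theorem li_coe {K : Type*} [Field K] [Algebra k K] (R : Subalgebra k K) {α : Type*} {v : α → ι → R}
    (h : LinearIndependent R v) : LinearIndependent K fun a i => (v a i : K) :=
  (linearIndependent_algebraMap_comp_iff (S := K)).2 h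

/-- **Nakayama**: a split conormal sequence gives local generators with independent differentials -/
theorem KeyAt.smAt {K : Type*} [Field K] [Algebra k K] {η : ι → K} (hη : ∀ j, aeval η (F j) = 0)
    (h : KeyAt F η) : ∃ S, SmAt F η S := by
  classical
  obtain ⟨h, h0, δ, hδ, hF⟩ := h
  let I := Ideal.span (Set.range F)
  let p : Ideal (MvPolynomial ι k) := RingHom.ker (aeval η : MvPolynomial ι k →ₐ[k] K)
  have hIp : I ≤ p := Ideal.span_le.2 (by rintro _ ⟨j, rfl⟩; exact hη j)
  let R := (aeval η : MvPolynomial ι k →ₐ[k] K).range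
  let v : κ → ι → R := fun j i => ⟨aeval η (pderiv i (F j)), _, rfl⟩
  obtain ⟨s, hs, hmax⟩ := exists_maximal_linearIndepOn R v
  let S := s.toFinset
  have hS : (S : Set κ) = s := Set.coe_toFinset s
  let N := Ideal.span (F '' (S : Set κ))
  have hNI : N ≤ I := Ideal.span_mono (Set.image_subset_range _ _)
  have h1 : ∀ j, ∃ a : MvPolynomial ι k, aeval η a ≠ 0 ∧ (h * a) * F j ∈ N ⊔ p • I := by
    intro j
    by_cases hj : j ∈ s
    · exact ⟨1, by simp, Submodule.mem_sup_left (Ideal.mul_mem_left _ _
        (Ideal.subset_span ⟨j, by rw [hS]; exact hj, rfl⟩))⟩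
    obtain ⟨⟨_, a, rfl⟩, ha, hm⟩ := hmax j hj
    rw [← hS, Set.image_eq_range, Submodule.mem_span_range_iff_exists_fun] at hm
    obtain ⟨c, hc⟩ := hm
    choose c' hc' using fun t => (c t).2
    have hn : ∑ t : (S : Set κ), c' t * F t ∈ N :=
      Ideal.sum_mem _ fun t _ => Ideal.mul_mem_left _ _ (Ideal.subset_span ⟨t, t.2, rfl⟩)
    have hj' : F j ∈ I := Ideal.subset_span ⟨j, rfl⟩
    have hG : a * F j - ∑ t : (S : Set κ), c' t * F t ∈ I :=
      sub_mem (Ideal.mul_mem_left _ _ hj') (hNI hn)
    have hd : ∀ i, pderiv i (a * F j - ∑ t : (S : Set κ), c' t * F t) ∈ p := fun i => by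
      have e := congrArg Subtype.val (congrFun hc i)
      simp only [Finset.sum_apply, Pi.smul_apply, smul_eq_mul, AddSubmonoidClass.coe_finsetSum,
        MulMemClass.coe_mul, v, ← hc'] at e
      change aeval η _ = 0
      simp only [map_sub, map_sum, Derivation.leibniz, smul_eq_mul, map_add, map_mul, hη, zero_mul,
        add_zero]
      exact sub_eq_zero.2 e.symm
    have h2 := key_span hδ hF hG
    have h3 : I ^ 2 ≤ p • I := by
      rw [pow_two, smul_eq_mul]
      exact Ideal.mul_mono_left hIp
    refine ⟨a, fun e => ha (Subtype.ext e), ?_⟩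
    have h4 := add_mem (Submodule.mem_sup_left (T := p • I) (Ideal.mul_mem_left N h hn))
      (Submodule.mem_sup_right (add_mem (h3 h2)
        (Submodule.sum_mem _ fun i (_ : i ∈ Finset.univ) => Submodule.smul_mem_smul (hd i) (hδ i))))
    convert h4 using 1
    simp only [smul_eq_mul]
    ring
  choose a ha0 ha using h1
  obtain ⟨n, b, hb, hn⟩ := nak (I := I) (N := N) (Submodule.fg_span (Set.finite_range F)) p
    (h * ∏ j, a j) (fun x hx => by
      induction hx using Submodule.span_induction with
      | mem x hx =>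
        obtain ⟨j, rfl⟩ := hx
        have := Submodule.smul_mem _ (∏ j' ∈ Finset.univ.erase j, a j') (ha j)
        convert this using 1
        rw [← Finset.mul_prod_erase _ _ (Finset.mem_univ j)]
        simp only [smul_eq_mul]
        ring
      | zero => simp
      | add x y _ _ hx hy => rw [smul_add]; exact add_mem hx hy
      | smul c x _ hx => rw [smul_comm]; exact Submodule.smul_mem _ _ hx)
  refine ⟨S, And.intro ?_ (Exists.intro ((h * ∏ j, a j) ^ n + b) (And.intro ?_ fun j => ?_))⟩
  rotate_right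
  · have h6 := hn (F j) (Ideal.subset_span ⟨j, rfl⟩)
    rwa [smul_eq_mul] at h6
  · have h5 : LinearIndependent R fun j : S => v j := by
      have : LinearIndepOn R v (S : Set κ) := by rw [hS]; exact hs
      exact this
    have h7 := li_coe R h5
    have e : (fun (a : S) i => (v a i : K)) = fun a : S => jac F η a :=
      funext fun a => funext fun i => by simp only [v, jac, Matrix.of_apply]
    rwa [e] at h7
  · have hb' : aeval η b = 0 := hb
    rw [map_add, hb', add_zero, map_pow, map_mul, map_prod]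
    exact pow_ne_zero _ (mul_ne_zero h0 (Finset.prod_ne_zero_iff.2 fun j _ => ha0 j))

/-- formal smoothness splits the conormal sequence -/
theorem key_of_smooth {A : Type} [CommRing A] [Algebra k A] [Algebra.FormallySmooth k A]
    (π : MvPolynomial ι k →ₐ[k] A) (hπ : Function.Surjective π) :
    ∃ δ : ι → MvPolynomial ι k, (∀ i, δ i ∈ RingHom.ker π) ∧
      ∀ G ∈ RingHom.ker π, G - ∑ i, pderiv i G * δ i ∈ RingHom.ker π ^ 2 := by
  obtain ⟨g, hg⟩ := (Algebra.FormallySmooth.iff_split_surjection π hπ).1 inferInstance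
  choose u hu using fun i => Ideal.Quotient.mk_surjective (g (π (X i)))
  have hu' : ∀ i, u i - X i ∈ RingHom.ker π := fun i => by
    have := congrArg π.kerSquareLift (hu i)
    have h2 : π.kerSquareLift (g (π (X i))) = π (X i) := DFunLike.congr_fun hg _
    rw [h2] at this
    rw [RingHom.mem_ker, map_sub]
    exact sub_eq_zero.2 this
  refine ⟨fun i => X i - u i, fun i => by simpa using neg_mem (hu' i), fun G hG => ?_⟩
  have h1 := Brg.Jac.taylor (RingHom.ker π) X (fun i => u i - X i) hu' G
  have e : (X + fun i => u i - X i) = u := by ext1 i; simp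
  have h2 : aeval u G ∈ RingHom.ker π ^ 2 := by
    have h3 : (Ideal.Quotient.mkₐ k (RingHom.ker π.toRingHom ^ 2)).comp (aeval u) = g.comp π :=
      algHom_ext fun i => by
        rw [AlgHom.comp_apply, aeval_X, AlgHom.comp_apply]; exact hu i
    have h4 := DFunLike.congr_fun h3 G
    have h5 : π G = 0 := hG
    simp only [AlgHom.comp_apply, h5, map_zero, Ideal.Quotient.mkₐ_eq_mk] at h4
    exact Ideal.Quotient.eq_zero_iff_mem.1 h4
  rw [e] at h1
  have h6 := sub_mem h2 h1
  simp only [aeval_X_left, AlgHom.coe_id, id_eq] at h6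
  convert h6 using 1
  simp only [mul_sub, Finset.sum_sub_distrib]
  ring

/-- **affine Jacobian criterion** (from smoothness to local equations) -/
theorem smAt_of_smooth {A : Type} [CommRing A] [Algebra k A] [Algebra.FormallySmooth k A]
    (π : MvPolynomial ι k →ₐ[k] A) (hπ : Function.Surjective π)
    (hF : RingHom.ker π = Ideal.span (Set.range F)) {K : Type*} [Field K] [Algebra k K]
    {η : ι → K} (hη : ∀ j, aeval η (F j) = 0) : ∃ S, SmAt F η S := by
  obtain ⟨δ, hδ, h⟩ := key_of_smooth π hπ
  rw [hF] at hδ h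
  exact KeyAt.smAt hη ⟨1, by simp, δ, hδ, fun j => by
    simpa using h (F j) (Ideal.subset_span ⟨j, rfl⟩)⟩

end Crest.Agent.X262.Syz
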