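import Crest.Agent.X262.Syz.Tgt
import Crest.Agent.X262.Syz.Sat0

/-!
# Row 262, road B (helper26): equations which cut out the variety up to saturation

* `Sat T y` : the equations vanish at `y` and generate the ideal of `y` up to saturation;
* `Cut.sat`, `sat_of_loc` (test at the complex points), `Sat.loc`, `Sat.irr`, `Sat.on_iff`,
  `Sat.ker_jac`, `Sat.genPt`, `Sat.smo`.
-/

set_option autoImplicit false
set_option linter.unusedSectionVars false

open MvPolynomial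

noncomputable section

namespace Crest.Agent.X262.Syz

open Crest.Agent.X277.BD Crest.Agent.X262.Vb

variable {J : Type} [Fintype J] [DecidableEq J] {io : J → Type} [∀ j, Fintype (io j)]
  [∀ j, DecidableEq (io j)] {A A' : Type} [Fintype A] [Fintype A'] {K : Type} [Field K]
  [Algebra ℂ K]

/-- the equations of `T` generate the multihomogeneous ideal of `y` up to saturation -/
def Sat (T : Tgt io A) (y : Pnt io K) : Prop :=
  T.On y ∧ ∀ q κ, MH q κ → pv y q = 0 → ∀ c : (j : J) → io j,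
    ∃ N : ℕ, (∏ j, X ⟨j, c j⟩) ^ N * q ∈ Ideal.span (Set.range T.F)

variable {T : Tgt io A} {T' : Tgt io A'} {y : Pnt io K}

theorem Cut.sat (h : Cut T y) : Sat T y :=
  ⟨h.on, fun _ _ hq h0 _ => ⟨0, by simpa using h.mem hq h0⟩⟩

/-- saturation can be tested at the complex points -/
theorem sat_of_loc (hy : T.On y) (h : ∀ q κ, MH q κ → pv y q = 0 → ∀ η : Pnt io ℂ, NZ η →
    T.On η → ∃ g, pv η g ≠ 0 ∧ g * q ∈ Ideal.span (Set.range T.F)) : Sat T y :=
  ⟨hy, fun q κ hq h0 c => pow_mul_mem _ _ _ fun η hη hu =>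
    h q κ hq h0 (fun j i => η ⟨j, i⟩) (fun j => ⟨c j, fun e => hu (by
      rw [map_prod]
      exact Finset.prod_eq_zero (Finset.mem_univ j) (by rw [aeval_X]; exact e))⟩)
      fun a => hη _ (Ideal.subset_span ⟨a, rfl⟩)⟩

namespace Sat

theorem on (h : Sat T y) : T.On y := h.1

theorem loc (h : Sat T y) {q : MvPolynomial (Vr io) ℂ} {κ : J → ℕ} (hq : MH q κ)
    (h0 : pv y q = 0) {E : Type} [Field E] [Algebra ℂ E] {η : Pnt io E} (hη : NZ η) :
    ∃ g, pv η g ≠ 0 ∧ g * q ∈ Ideal.span (Set.range T.F) := by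
  choose c hc using hη
  obtain ⟨N, hN⟩ := h.2 q κ hq h0 c
  refine ⟨_, ?_, hN⟩
  simp only [pv, map_pow, map_prod, aeval_X]
  exact pow_ne_zero _ (Finset.prod_ne_zero_iff.2 fun j _ => hc j)

theorem irr (h : Sat T y) {q : MvPolynomial (Vr io) ℂ} {κ : J → ℕ} (hq : MH q κ) (h0 : pv y q = 0)
    {E : Type} [Field E] [Algebra ℂ E] {η : Pnt io E} (hη : NZ η) (hT : T.On η) : pv η q = 0 := by
  classical
  obtain ⟨g, hg0, hg⟩ := h.loc hq h0 hη
  exact on_of_loc hT hg0 hg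

theorem on_iff (h : Sat T y) {E : Type} [Field E] [Algebra ℂ E] {η : Pnt io E} (hη : NZ η) :
    T.On η ↔ ∀ q κ, MH q κ → pv y q = 0 → pv η q = 0 :=
  ⟨fun hT _ _ hq h0 => h.irr hq h0 hη hT, fun hη a => hη _ _ (T.hom a) (h.on a)⟩

/-- two systems for the same point have the same points -/
theorem on_of (h : Sat T y) (h' : T'.On y) {E : Type} [Field E] [Algebra ℂ E] {η : Pnt io E}
    (hη : NZ η) (hT : T.On η) : T'.On η := fun b => h.irr (T'.hom b) (h' b) hη hT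

/-- two systems for the same point have the same tangent spaces -/
theorem ker_jac (h : Sat T y) (h' : Sat T' y) {E : Type} [Field E] [Algebra ℂ E] {η : Pnt io E}
    (hη : NZ η) (hT : T.On η) : LinearMap.ker (T.jac η) = LinearMap.ker (T'.jac η) := by
  classical
  exact Submodule.ext fun v =>
    ⟨ker_jac_le (F := T.F) (F' := T'.F) hT fun b => h.loc (T'.hom b) (h'.on b) hη,
      ker_jac_le (F := T'.F) (F' := T.F) (h.on_of h'.on hη hT)
        fun a => h'.loc (T.hom a) (h.on a) hη⟩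

theorem genPt (h : Sat T y) (hy : NZ y) (hg : Gen y) : GenPt T (cod y) y :=
  ⟨hy, h.on, hg, (cut_tgt y).dim_add hy hg, fun _ _ hq h0 _ _ _ _ hη hT => h.irr hq h0 hη hT⟩

theorem smAt [DecidableEq A] (h : Sat T y) (hs : SmCh y) {E : Type} [Field E] [Algebra ℂ E]
    {η : Pnt io E} (hη : NZ η) (hT : T.On η) : ∃ S, SmAt T.F (fl η) S := by
  have h0 := cut_tgt y
  have hT0 : (tgt y).On η := h.on_of h0.on hη hT
  obtain ⟨c, hc⟩ := Classical.axiomOfChoice ((nz_iff η).1 hη)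
  have hy : ∀ j, fl y (c j) ≠ 0 := fun j => ne_of_on h0 hT0 (hc j).2
  have := hs c (fun j => (hc j).1) hy
  exact ((keyAt_cone (tgt y).hom h0 (fun j => (hc j).1) hy fun j => (hc j).2).of_loc
    (fun a => h0.mem (T.hom a) (h.on a)) fun b => h.loc ((tgt y).hom b) (h0.on b) hη).smAt hT

theorem finrank_Nm (h : Sat T y) (hy : NZ y) (hg : Gen y) (hs : SmCh y) {E : Type} [Field E]
    [Algebra ℂ E] {η : Pnt io E} (hη : NZ η) (hT : T.On η) :
    Module.finrank E (T.Nm η) = cod y := by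
  classical
  have h0 := cut_tgt y
  have hT0 : (tgt y).On η := h.on_of h0.on hη hT
  rw [← h0.finrank_Nm hy hg hs hη hT0, Syz.finrank_Nm, Syz.finrank_Nm]
  exact rank_jac_of_loc hT hT0 (fun b => h.loc ((tgt y).hom b) (h0.on b) hη)
    fun a => h0.sat.loc (T.hom a) (h.on a) hη

/-- **the target is smooth** -/
theorem smo (h : Sat T y) (hy : NZ y) (hg : Gen y) (hs : SmCh y) (hc : ∃ a, T.F a ≠ 0) :
    Smo T (cod y) := by
  classical
  obtain ⟨r, ρ, e, hρ, he⟩ := exists_isSyz_nat T.F T.k T.hom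
  refine ⟨hc, ⟨r, ρ, e, he, hρ.rel⟩, fun E _ _ η hη hT => ⟨h.finrank_Nm hy hg hs hη hT, ?_⟩⟩
  intro σ hσ
  obtain ⟨S, hS⟩ := h.smAt hs hη hT
  exact (hρ.ker_iff hT hS σ).1 (funext hσ)

theorem exists_ne (h : Sat T y) (hy : NZ y) (hc : ∃ q κ, q ≠ 0 ∧ MH q κ ∧ pv y q = 0) :
    ∃ a, T.F a ≠ 0 := by
  obtain ⟨q, κ, hq0, hq, h0⟩ := hc
  obtain ⟨g, hg0, hg⟩ := h.loc hq h0 hy
  by_contra hn
  push Not at hn
  refine mul_ne_zero (fun e => hg0 (by rw [e]; exact map_zero _)) hq0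
    ((Ideal.span_le.2 ?_ : Ideal.span (Set.range T.F) ≤ ⊥) hg)
  rintro _ ⟨a, rfl⟩
  exact hn a

end Sat

/-- a target with `SmAt` everywhere and constant rank is smooth -/
theorem smo_of_smAt [DecidableEq A] {c : ℕ} (h0 : ∃ a, T.F a ≠ 0)
    (h : ∀ (E : Type) [Field E] [Algebra ℂ E] (η : Pnt io E), NZ η → T.On η →
      ∃ S : Finset A, S.card = c ∧ SmAt T.F (fl η) S) : Smo T c := by
  obtain ⟨r, ρ, e, hρ, he⟩ := exists_isSyz_nat T.F T.k T.hom
  refine ⟨h0, ⟨r, ρ, e, he, hρ.rel⟩, fun E _ _ η hη hT => ?_⟩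
  obtain ⟨S, hc, hS⟩ := h E η hη hT
  exact ⟨by rw [finrank_Nm, hS.rank_jac hT, hc], fun σ hσ => (hρ.ker_iff hT hS σ).1 (funext hσ)⟩

end Crest.Agent.X262.Syz
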