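import Crest.Agent.R216.ParamInt

/-!
# Row 262, GW-CORE A (helper26): the spectral projector of a matrix

`proj ε H = (2 π i)⁻¹ ∮_{|z| = ε} (z - H)⁻¹ dz`.  On the open, conjugation invariant set `Gap ε` it
is smooth, idempotent, natural for intertwiners, the identity on `ker H`.
-/

set_option autoImplicit false
set_option linter.unusedSectionVars false

open Matrix Complex Metric Set Filter Topology
open scoped ContDiff Real

noncomputable section

namespace Crest.Agent.X262.Syz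

variable {n m : Type*} [Fintype n] [DecidableEq n] [Fintype m] [DecidableEq m]

/-- no eigenvalue on the circle of radius `ε` -/
def Gap (ε : ℝ) (H : Matrix n n ℂ) : Prop := ∀ z : ℂ, ‖z‖ = ε → (z • (1 : Matrix n n ℂ) - H).det ≠ 0

/-- the resolvent as a plain function -/
def rs (H : Matrix n n ℂ) (z : ℂ) : n → n → ℂ := fun i j => (z • (1 : Matrix n n ℂ) - H)⁻¹ i j

/-- the spectral projector of the eigenvalues of modulus `< ε` -/
def proj (ε : ℝ) (H : Matrix n n ℂ) : Matrix n n ℂ :=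
  Matrix.of ((2 * π * I : ℂ)⁻¹ • ∮ z in C(0, ε), rs H z)

/-! ### smoothness -/

section smooth
variable {E : Type*} [NormedAddCommGroup E] [NormedSpace ℝ E] {k : WithTop ℕ∞}

theorem contDiffAt_det {A : E → Matrix n n ℂ} {x : E}
    (h : ∀ i j, ContDiffAt ℝ k (fun y => A y i j) x) : ContDiffAt ℝ k (fun y => (A y).det) x := by
  simp only [Matrix.det_apply']
  refine ContDiffAt.sum fun σ _ => contDiffAt_const.mul ?_
  exact contDiffAt_prod fun i _ => h _ _

theorem contDiffAt_adjugate {A : E → Matrix n n ℂ} {x : E}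
    (h : ∀ i j, ContDiffAt ℝ k (fun y => A y i j) x) (i j : n) :
    ContDiffAt ℝ k (fun y => (A y).adjugate i j) x := by
  simp only [Matrix.adjugate_apply]
  refine contDiffAt_det fun a b => ?_
  simp only [Matrix.updateRow_apply]
  split_ifs
  · exact contDiffAt_const
  · exact h _ _

theorem contDiffAt_inv {A : E → Matrix n n ℂ} {x : E}
    (h : ∀ i j, ContDiffAt ℝ k (fun y => A y i j) x) (h0 : (A x).det ≠ 0) (i j : n) :
    ContDiffAt ℝ k (fun y => (A y)⁻¹ i j) x := by
  simp only [Matrix.inv_def, Ring.inverse_eq_inv', Matrix.smul_apply, smul_eq_mul]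
  exact ((contDiffAt_det h).inv h0).mul (contDiffAt_adjugate h i j)

theorem contDiffAt_mul {l : Type*} {A : E → Matrix l n ℂ} {B : E → Matrix n m ℂ} {x : E}
    (hA : ∀ i j, ContDiffAt ℝ k (fun y => A y i j) x)
    (hB : ∀ i j, ContDiffAt ℝ k (fun y => B y i j) x) (i : l) (j : m) :
    ContDiffAt ℝ k (fun y => (A y * B y) i j) x := by
  simp only [Matrix.mul_apply]
  exact ContDiffAt.sum fun a _ => (hA _ _).mul (hB _ _)

theorem contDiffAt_rs {A : E → Matrix n n ℂ} {z : E → ℂ} {x : E}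
    (h : ∀ i j, ContDiffAt ℝ k (fun y => A y i j) x) (hz : ContDiffAt ℝ k z x)
    (h0 : (z x • (1 : Matrix n n ℂ) - A x).det ≠ 0) :
    ContDiffAt ℝ k (fun y => rs (A y) (z y)) x := by
  refine contDiffAt_pi.2 fun i => contDiffAt_pi.2 fun j => ?_
  refine contDiffAt_inv (A := fun y => z y • (1 : Matrix n n ℂ) - A y) (fun a b => ?_) h0 i j
  simp only [Matrix.sub_apply, Matrix.smul_apply, smul_eq_mul]
  exact (hz.mul contDiffAt_const).sub (h a b)

end smooth

theorem Gap.eventually {X : Type*} [TopologicalSpace X] {ε : ℝ} {A : X → Matrix n n ℂ} {x : X}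
    (h : ∀ i j, ContinuousAt (fun y => A y i j) x) (hx : Gap ε (A x)) :
    ∀ᶠ y in 𝓝 x, Gap ε (A y) := by
  have hA : ContinuousAt A x := continuousAt_pi.2 fun i => continuousAt_pi.2 fun j => h i j
  have := (isCompact_sphere (0 : ℂ) ε).eventually_forall_of_forall_eventually (x₀ := x)
    (P := fun y z => (z • (1 : Matrix n n ℂ) - A y).det ≠ 0) fun z hz => by
      have hc : ContinuousAt (fun p : X × ℂ => (p.2 • (1 : Matrix n n ℂ) - A p.1).det) (x, z) := by
        refine (continuous_id.matrix_det.continuousAt).comp ?_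
        exact (continuousAt_snd.smul continuousAt_const).sub
          (hA.comp_of_eq continuousAt_fst rfl)
      exact hc.eventually_ne (hx z (by simpa using hz))
  filter_upwards [this] with y hy z hz using hy z (by simpa using hz)

theorem Gap.contOn {ε : ℝ} {H : Matrix n n ℂ} (h : Gap ε H) :
    ContinuousOn (rs H) (sphere 0 ε) := fun z hz =>
  (contDiffAt_rs (k := 0) (A := fun _ : ℂ => H) (z := fun y => y) (fun _ _ => contDiffAt_const)
    contDiffAt_id (h z (by simpa using hz))).continuousAt.continuousWithinAt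

theorem Gap.integrable {ε : ℝ} (hε : 0 ≤ ε) {H : Matrix n n ℂ} (h : Gap ε H) :
    CircleIntegrable (rs H) 0 ε := h.contOn.circleIntegrable hε

theorem contDiffAt_proj_pi {ε : ℝ} (hε : 0 ≤ ε) {H : n → n → ℂ} (h : Gap ε (Matrix.of H)) :
    ContDiffAt ℝ ∞ (fun A : n → n → ℂ => ∮ z in C(0, ε), rs (Matrix.of A) z) H := by
  have hev : ∀ᶠ A in 𝓝 H, Gap ε (Matrix.of A) :=
    Gap.eventually (A := fun A : n → n → ℂ => Matrix.of A)
      (fun i j => (continuous_apply_apply i j).continuousAt) h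
  obtain ⟨δ, hδ, hb⟩ := Metric.eventually_nhds_iff_ball.1 hev
  let b : ContDiffBump H := ⟨δ / 4, δ / 2, by positivity, by linarith⟩
  let ρ : (n → n → ℂ) → (n → n → ℂ) := fun A => H + b A • (A - H)
  have hρ : ContDiff ℝ ∞ ρ :=
    contDiff_const.add (b.contDiff.smul (contDiff_id.sub contDiff_const))
  have hρb : ∀ A, ρ A ∈ ball H δ := by
    intro A
    by_cases hA : A ∈ ball H (δ / 2)
    · rw [mem_ball_iff_norm] at hA ⊢
      have : ρ A - H = b A • (A - H) := by simp [ρ]
      rw [this, norm_smul, Real.norm_of_nonneg b.nonneg]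
      have := b.le_one (x := A)
      nlinarith [norm_nonneg (A - H)]
    · have : b A = 0 := b.zero_of_le_dist (by simpa [b] using hA)
      simp [ρ, this, hδ]
  have hρe : ρ =ᶠ[𝓝 H] id := by
    filter_upwards [b.eventuallyEq_one] with A hA
    simp [ρ, hA]
  have key : ContDiff ℝ ∞ (fun A : n → n → ℂ => ∮ z in C(0, ε), rs (Matrix.of (ρ A)) z) := by
    simp only [circleIntegral]
    refine Crest.Agent.R216.contDiff_param_integral (n := ⊤)
      (h := fun A θ => deriv (circleMap 0 ε) θ • rs (Matrix.of (ρ A)) (circleMap 0 ε θ)) _ _ ?_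
    refine contDiff_iff_contDiffAt.2 fun p => ?_
    have hc : ContDiff ℝ ∞ (fun q : (n → n → ℂ) × ℝ => circleMap 0 ε q.2) :=
      (contDiff_circleMap 0 ε).comp contDiff_snd
    simp only [deriv_circleMap]
    refine ContDiffAt.smul (f := fun q : (n → n → ℂ) × ℝ => circleMap 0 ε q.2 * I)
      (g := fun q : (n → n → ℂ) × ℝ => rs (Matrix.of (ρ q.1)) (circleMap 0 ε q.2))
      (hc.contDiffAt.mul contDiffAt_const) ?_
    refine contDiffAt_rs (A := fun q : (n → n → ℂ) × ℝ => Matrix.of (ρ q.1))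
      (z := fun q => circleMap 0 ε q.2) (fun i j => ?_) hc.contDiffAt
      (hb _ (hρb _) _ (by simp [abs_of_nonneg hε]))
    exact (contDiff_pi.1 (contDiff_pi.1 (hρ.comp contDiff_fst) i) j).contDiffAt
  refine key.contDiffAt.congr_of_eventuallyEq ?_
  filter_upwards [hρe] with A hA
  rw [hA]; rfl

/-- **smoothness of the projector** -/
theorem contDiffAt_proj {E : Type*} [NormedAddCommGroup E] [NormedSpace ℝ E] {ε : ℝ} (hε : 0 ≤ ε)
    {A : E → Matrix n n ℂ} {x : E} (h : ∀ i j, ContDiffAt ℝ ∞ (fun y => A y i j) x)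
    (hx : Gap ε (A x)) (i j : n) : ContDiffAt ℝ ∞ (fun y => proj ε (A y) i j) x := by
  have h1 : ContDiffAt ℝ ∞ (fun y => (fun i j => A y i j : n → n → ℂ)) x :=
    contDiffAt_pi.2 fun i => contDiffAt_pi.2 fun j => h i j
  have h2 := (contDiffAt_proj_pi hε (H := fun i j => A x i j) hx).comp x h1
  have h3 := contDiffAt_pi.1 (contDiffAt_pi.1 (h2.const_smul (2 * π * I : ℂ)⁻¹) i) j
  exact h3

theorem continuousAt_proj {X : Type*} [TopologicalSpace X] {ε : ℝ} (hε : 0 ≤ ε)
    {A : X → Matrix n n ℂ} {x : X} (h : ∀ i j, ContinuousAt (fun y => A y i j) x)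
    (hx : Gap ε (A x)) (i j : n) : ContinuousAt (fun y => proj ε (A y) i j) x := by
  have h1 : ContinuousAt (fun y => (fun i j => A y i j : n → n → ℂ)) x :=
    continuousAt_pi.2 fun i => continuousAt_pi.2 fun j => h i j
  have h2 := (contDiffAt_proj_pi hε (H := fun i j => A x i j) hx).continuousAt.comp_of_eq h1 rfl
  exact continuousAt_pi.1 (continuousAt_pi.1 (h2.const_smul (2 * π * I : ℂ)⁻¹) i) j

/-! ### linear functionals of the projector -/

theorem map_proj {F : Type*} [NormedAddCommGroup F] [NormedSpace ℂ F] [CompleteSpace F] {ε : ℝ}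
    (hε : 0 ≤ ε) {H : Matrix n n ℂ} (h : Gap ε H) (L : Matrix n n ℂ →ₗ[ℂ] F) :
    L (proj ε H) = (2 * π * I : ℂ)⁻¹ • ∮ z in C(0, ε), L (z • (1 : Matrix n n ℂ) - H)⁻¹ := by
  let L' : (n → n → ℂ) →L[ℂ] F :=
    LinearMap.toContinuousLinearMap (L ∘ₗ (Matrix.ofLinearEquiv ℂ).toLinearMap)
  have h1 : L (proj ε H) = L' ((2 * π * I : ℂ)⁻¹ • ∮ z in C(0, ε), rs H z) := rfl
  rw [h1, map_smul]
  congr 1
  simp only [circleIntegral]
  rw [← L'.intervalIntegral_comp_comm (h.integrable hε).out]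
  simp only [map_smul]
  rfl

/-- **naturality** -/
theorem proj_intertwine {ε : ℝ} (hε : 0 ≤ ε) {H : Matrix n n ℂ} {H' : Matrix m m ℂ}
    (h : Gap ε H) (h' : Gap ε H') {T : Matrix m n ℂ} (hT : T * H = H' * T) :
    T * proj ε H = proj ε H' * T := by
  ext i j
  let L : Matrix n n ℂ →ₗ[ℂ] ℂ :=
    { toFun := fun M => (T * M) i j
      map_add' := fun a b => by simp [Matrix.mul_add]
      map_smul' := fun a b => by simp [Matrix.mul_smul] }
  let L' : Matrix m m ℂ →ₗ[ℂ] ℂ :=
    { toFun := fun M => (M * T) i j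
      map_add' := fun a b => by simp [Matrix.add_mul]
      map_smul' := fun a b => by simp [Matrix.smul_mul] }
  have e1 := map_proj hε h L
  have e2 := map_proj hε h' L'
  change L (proj ε H) = L' (proj ε H')
  rw [e1, e2]
  congr 1
  refine circleIntegral.integral_congr hε fun z hz => ?_
  have hz' : ‖z‖ = ε := by simpa using hz
  have u1 : IsUnit (z • (1 : Matrix n n ℂ) - H).det := (h z hz').isUnit
  have u2 : IsUnit (z • (1 : Matrix m m ℂ) - H').det := (h' z hz').isUnit
  have e : (z • (1 : Matrix m m ℂ) - H') * T = T * (z • (1 : Matrix n n ℂ) - H) := by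
    simp [Matrix.sub_mul, Matrix.mul_sub, hT]
  have : T * (z • (1 : Matrix n n ℂ) - H)⁻¹ = (z • (1 : Matrix m m ℂ) - H')⁻¹ * T := by
    calc T * (z • (1 : Matrix n n ℂ) - H)⁻¹
        = (z • (1 : Matrix m m ℂ) - H')⁻¹ * ((z • (1 : Matrix m m ℂ) - H') * T) *
            (z • (1 : Matrix n n ℂ) - H)⁻¹ := by
          rw [← Matrix.mul_assoc, Matrix.nonsing_inv_mul _ u2, Matrix.one_mul]
      _ = _ := by
          rw [e, Matrix.mul_assoc, Matrix.mul_assoc, Matrix.mul_nonsing_inv _ u1, Matrix.mul_one]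
  exact congrFun (congrFun this i) j

theorem Gap.conj {ε : ℝ} {H : Matrix n n ℂ} {H' : Matrix m m ℂ} (h : Gap ε H)
    {T : Matrix m n ℂ} {S : Matrix n m ℂ} (hTS : T * S = 1) (hT : T * H = H' * T) :
    Gap ε H' := by
  intro z hz
  have u1 : IsUnit (z • (1 : Matrix n n ℂ) - H).det := (h z hz).isUnit
  have e : (z • (1 : Matrix m m ℂ) - H') * (T * (z • (1 : Matrix n n ℂ) - H)⁻¹ * S) = 1 := by
    have e1 : (z • (1 : Matrix m m ℂ) - H') * T = T * (z • (1 : Matrix n n ℂ) - H) := by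
      simp [Matrix.sub_mul, Matrix.mul_sub, hT]
    rw [← Matrix.mul_assoc, ← Matrix.mul_assoc, e1, Matrix.mul_assoc T,
      Matrix.mul_nonsing_inv _ u1, Matrix.mul_one, hTS]
  exact (Matrix.isUnit_det_of_right_inverse e).ne_zero

/-! ### the action on generalised eigenvectors -/

theorem inv_mulVec_gen {H : Matrix n n ℂ} {z l : ℂ} (hu : (z • (1 : Matrix n n ℂ) - H).det ≠ 0)
    (hz : z ≠ l) (k : ℕ) (v : n → ℂ) (hv : (H - l • 1) ^ k *ᵥ v = 0) :
    (z • (1 : Matrix n n ℂ) - H)⁻¹ *ᵥ v =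
      ∑ j ∈ Finset.range k, (z - l) ^ (-(j + 1 : ℕ) : ℤ) • ((H - l • 1) ^ j *ᵥ v) := by
  induction k generalizing v with
  | zero =>
    have : v = 0 := by simpa using hv
    simp [this]
  | succ k ih =>
    have hw := ih ((H - l • 1) *ᵥ v) (by rw [Matrix.mulVec_mulVec, ← pow_succ]; exact hv)
    have hzl : z - l ≠ 0 := sub_ne_zero.2 hz
    have e1 : (z • (1 : Matrix n n ℂ) - H) *ᵥ v = (z - l) • v - (H - l • 1) *ᵥ v := by
      simp only [Matrix.sub_mulVec, Matrix.smul_mulVec, Matrix.one_mulVec, sub_smul]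
      abel
    have e2 : v = (z - l) • ((z • (1 : Matrix n n ℂ) - H)⁻¹ *ᵥ v) -
        (z • (1 : Matrix n n ℂ) - H)⁻¹ *ᵥ ((H - l • 1) *ᵥ v) := by
      rw [← Matrix.mulVec_smul, ← Matrix.mulVec_sub, ← e1, Matrix.mulVec_mulVec,
        Matrix.nonsing_inv_mul _ hu.isUnit, Matrix.one_mulVec]
    have e3 : (z • (1 : Matrix n n ℂ) - H)⁻¹ *ᵥ v = (z - l)⁻¹ • (v +
        (z • (1 : Matrix n n ℂ) - H)⁻¹ *ᵥ ((H - l • 1) *ᵥ v)) := by
      rw [eq_inv_smul_iff₀ hzl]
      exact (eq_sub_iff_add_eq.1 e2).symm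
    rw [e3, hw, Finset.sum_range_succ', smul_add, Finset.smul_sum, add_comm]
    congr 1
    · refine Finset.sum_congr rfl fun j _ => ?_
      rw [smul_smul, Matrix.mulVec_mulVec, ← pow_succ]
      congr 1
      rw [← _root_.zpow_neg_one, ← zpow_add₀ hzl]
      congr 1
      push_cast; ring
    · simp

theorem det_eq_zero_of_gen {H : Matrix n n ℂ} {l : ℂ} {k : ℕ} {v : n → ℂ}
    (hv : (H - l • 1) ^ k *ᵥ v = 0) (h0 : v ≠ 0) : (l • (1 : Matrix n n ℂ) - H).det = 0 := by
  by_contra hd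
  have hd' : (H - l • (1 : Matrix n n ℂ)).det ≠ 0 := by
    rw [← neg_sub, Matrix.det_neg]
    exact mul_ne_zero (pow_ne_zero _ (by norm_num)) hd
  have : ((H - l • (1 : Matrix n n ℂ)) ^ k).det ≠ 0 := by
    rw [Matrix.det_pow]; exact pow_ne_zero _ hd'
  exact h0 (Matrix.eq_zero_of_mulVec_eq_zero this hv)

theorem proj_mulVec_gen {ε : ℝ} (hε : 0 < ε) {H : Matrix n n ℂ} (h : Gap ε H) {l : ℂ} {k : ℕ}
    {v : n → ℂ} (hv : (H - l • 1) ^ k *ᵥ v = 0) :
    proj ε H *ᵥ v = if ‖l‖ < ε then v else 0 := by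
  by_cases h0 : v = 0
  · simp [h0]
  have hl : ‖l‖ ≠ ε := fun e => h l e (det_eq_zero_of_gen hv h0)
  obtain ⟨k, rfl⟩ : ∃ k', k = k' + 1 := by
    cases k with
    | zero => exact absurd (by simpa using hv) h0
    | succ k => exact ⟨k, rfl⟩
  let L : Matrix n n ℂ →ₗ[ℂ] (n → ℂ) :=
    { toFun := fun M => M *ᵥ v
      map_add' := fun a b => Matrix.add_mulVec _ _ _
      map_smul' := fun a b => Matrix.smul_mulVec _ _ _ }
  have e1 := map_proj hε.le h L
  change L (proj ε H) = _
  rw [e1]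
  have hne : ∀ z ∈ sphere (0 : ℂ) ε, z ≠ l := fun z hz e => hl (by rw [← e]; simpa using hz)
  have e2 : (∮ z in C(0, ε), L (z • (1 : Matrix n n ℂ) - H)⁻¹) = ∮ z in C(0, ε),
      ∑ j ∈ Finset.range (k + 1), (z - l) ^ (-(j + 1 : ℕ) : ℤ) • ((H - l • 1) ^ j *ᵥ v) :=
    circleIntegral.integral_congr hε.le fun z hz =>
      inv_mulVec_gen (h z (by simpa using hz)) (hne z hz) _ v hv
  have hint : ∀ j ∈ Finset.range (k + 1), CircleIntegrable
      (fun z : ℂ => (z - l) ^ (-(j + 1 : ℕ) : ℤ) • ((H - l • 1) ^ j *ᵥ v)) 0 ε := by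
    intro j _
    have hc : ContinuousOn (fun z : ℂ => (z - l) ^ (-(j + 1 : ℕ) : ℤ)) (sphere 0 ε) :=
      (continuousOn_id.sub continuousOn_const).zpow₀ _ fun z hz =>
        Or.inl (sub_ne_zero.2 (hne z hz))
    exact ContinuousOn.circleIntegrable hε.le (hc.smul continuousOn_const)
  rw [e2, circleIntegral.integral_fun_sum hint, Finset.sum_range_succ',
    Finset.sum_eq_zero fun j _ => ?_]
  · rw [circleIntegral.integral_smul_const]
    simp only [zero_add, Nat.cast_one, _root_.zpow_neg_one, pow_zero, Matrix.one_mulVec]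
    split_ifs with hlt
    · rw [circleIntegral.integral_sub_inv_of_mem_ball (by simpa using hlt), smul_smul,
        inv_mul_cancel₀ two_pi_I_ne_zero, one_smul]
    · have hgt : ε < ‖l‖ := lt_of_le_of_ne (not_lt.1 hlt) (Ne.symm hl)
      have : (∮ z in C(0, ε), (z - l)⁻¹) = 0 := by
        refine DiffContOnCl.circleIntegral_eq_zero hε.le (DifferentiableOn.diffContOnCl ?_)
        rw [closure_ball _ hε.ne']
        refine (differentiableOn_id.sub_const l).inv fun z hz e => ?_
        have h1 : ‖z‖ ≤ ε := by simpa using hz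
        have h2 : z = l := sub_eq_zero.1 e
        rw [h2] at h1
        linarith
      rw [this, zero_smul, smul_zero]
  · rw [circleIntegral.integral_smul_const, circleIntegral.integral_sub_zpow_of_ne, zero_smul]
    push_cast; omega

/-- two matrices which agree on the generalised eigenvectors of `H` are equal -/
theorem ext_gen (H : Matrix n n ℂ) {A B : Matrix m n ℂ}
    (h : ∀ (l : ℂ) (k : ℕ) (v : n → ℂ), (H - l • 1) ^ k *ᵥ v = 0 → A *ᵥ v = B *ᵥ v) : A = B := by
  have htop := Module.End.iSup_maxGenEigenspace_eq_top (Matrix.toLin' H)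
  have key : ∀ v : n → ℂ, A *ᵥ v = B *ᵥ v := by
    intro v
    have hv : v ∈ ⨆ μ, Module.End.maxGenEigenspace (Matrix.toLin' H) μ := by
      rw [htop]; trivial
    induction hv using Submodule.iSup_induction' with
    | mem l v hv =>
      obtain ⟨k, hk⟩ := (Module.End.mem_maxGenEigenspace _ _ _).1 hv
      refine h l k v ?_
      have : (Matrix.toLin' H - l • 1 : Module.End ℂ (n → ℂ)) = Matrix.toLin' (H - l • 1) := by
        rw [map_sub, map_smul, Matrix.toLin'_one]; rfl
      rw [this, ← Matrix.toLin'_pow] at hk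
      exact hk
    | zero => simp
    | add v w _ _ hv hw => rw [Matrix.mulVec_add, Matrix.mulVec_add, hv, hw]
  ext i j
  simpa using congrFun (key (Pi.single j 1)) i

/-- **idempotent** -/
theorem proj_mul_proj {ε : ℝ} (hε : 0 < ε) {H : Matrix n n ℂ} (h : Gap ε H) :
    proj ε H * proj ε H = proj ε H := by
  refine ext_gen H fun l k v hv => ?_
  rw [← Matrix.mulVec_mulVec, proj_mulVec_gen hε h hv]
  split_ifs with hl
  · rw [proj_mulVec_gen hε h hv, if_pos hl]
  · simp

theorem proj_comm {ε : ℝ} (hε : 0 ≤ ε) {H : Matrix n n ℂ} (h : Gap ε H) :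
    H * proj ε H = proj ε H * H := proj_intertwine hε h h rfl

/-- **the identity on the kernel** -/
theorem proj_mulVec_of_ker {ε : ℝ} (hε : 0 < ε) {H : Matrix n n ℂ} (h : Gap ε H) {v : n → ℂ}
    (hv : H *ᵥ v = 0) : proj ε H *ᵥ v = v := by
  rw [proj_mulVec_gen hε h (l := 0) (k := 1) (by simpa using hv), if_pos (by simpa using hε)]

end Crest.Agent.X262.Syz
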