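import Crest.Agent.X262.Syz.Spc

/-!
# Row 262, GW-CORE A (helper26): the projector onto the kernel

`Sep ε H` (all eigenvalues are `0` or of modulus `> ε`) and `ker H² = ker H` make `proj ε H` the
projector onto `ker H`; one `ε` works on a compact family of constant rank; `adj h h' Ψ * Ψ`.
-/

set_option autoImplicit false
set_option linter.unusedSectionVars false

open Matrix Complex Metric Set Filter Topology
open scoped ContDiff Real ComplexOrder

noncomputable section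

namespace Crest.Agent.X262.Syz

variable {n m : Type*} [Fintype n] [DecidableEq n] [Fintype m] [DecidableEq m]

/-- every eigenvalue is zero or of modulus `> ε` -/
def Sep (ε : ℝ) (H : Matrix n n ℂ) : Prop :=
  ∀ z : ℂ, (z • (1 : Matrix n n ℂ) - H).det = 0 → z = 0 ∨ ε < ‖z‖

/-- `ker H² = ker H` -/
def Ker2 (H : Matrix n n ℂ) : Prop := ∀ v : n → ℂ, H *ᵥ (H *ᵥ v) = 0 → H *ᵥ v = 0

theorem Sep.mono {ε ε' : ℝ} {H : Matrix n n ℂ} (h : Sep ε H) (he : ε' ≤ ε) : Sep ε' H :=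
  fun z hz => (h z hz).imp_right fun h1 => he.trans_lt h1

theorem Sep.gap {ε : ℝ} (hε : 0 < ε) {H : Matrix n n ℂ} (h : Sep ε H) : Gap ε H := by
  intro z hz h0
  rcases h z h0 with rfl | h1
  · simp at hz; linarith
  · linarith

theorem Ker2.pow {H : Matrix n n ℂ} (h : Ker2 H) (k : ℕ) (v : n → ℂ) (hv : H ^ k *ᵥ v = 0) :
    H *ᵥ v = 0 := by
  induction k generalizing v with
  | zero =>
    have : v = 0 := by simpa using hv
    simp [this]
  | succ k ih => exact h v (ih _ (by rw [Matrix.mulVec_mulVec, ← pow_succ]; exact hv))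

theorem mul_proj {ε : ℝ} (hε : 0 < ε) {H : Matrix n n ℂ} (h : Sep ε H) (h2 : Ker2 H) :
    H * proj ε H = 0 := by
  refine ext_gen H fun l k v hv => ?_
  rw [← Matrix.mulVec_mulVec, proj_mulVec_gen hε (h.gap hε) hv, Matrix.zero_mulVec]
  split_ifs with hl
  · by_cases h0 : v = 0
    · simp [h0]
    rcases h l (det_eq_zero_of_gen hv h0) with rfl | h1
    · exact h2.pow k v (by simpa using hv)
    · linarith
  · simp

/-- **the image of the projector is the kernel** -/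
theorem proj_mulVec_iff {ε : ℝ} (hε : 0 < ε) {H : Matrix n n ℂ} (h : Sep ε H) (h2 : Ker2 H)
    (v : n → ℂ) : proj ε H *ᵥ v = v ↔ H *ᵥ v = 0 := by
  refine ⟨fun hv => ?_, proj_mulVec_of_ker hε (h.gap hε)⟩
  rw [← hv, Matrix.mulVec_mulVec, mul_proj hε h h2, Matrix.zero_mulVec]

theorem trace_eq_rank {P : Matrix n n ℂ} (h : P * P = P) : P.trace = P.rank := by
  have hp : LinearMap.IsProj (LinearMap.range P.mulVecLin) (Matrix.toLin' P) :=
    ⟨fun x => ⟨x, rfl⟩, by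
      rintro _ ⟨x, rfl⟩
      simp only [Matrix.toLin'_apply, Matrix.mulVecLin_apply, Matrix.mulVec_mulVec, h]⟩
  have := hp.trace
  rw [Matrix.trace_toLin'_eq] at this
  exact this

/-- the rank of a continuous family of idempotents is locally constant -/
theorem rank_eventually {X : Type*} [TopologicalSpace X] {P : X → Matrix n n ℂ} {x : X}
    {F : Filter X} (hF : F ≤ 𝓝 x) (h : ∀ i j, ContinuousAt (fun y => P y i j) x)
    (hx : P x * P x = P x) (hP : ∀ᶠ y in F, P y * P y = P y) :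
    ∀ᶠ y in F, (P y).rank = (P x).rank := by
  have hc : ContinuousAt (fun y => (P y).trace) x :=
    tendsto_finsetSum _ fun i _ => h i i
  have h1 := (Metric.tendsto_nhds.1 hc 1 one_pos).filter_mono hF
  filter_upwards [h1, hP] with y hy hy'
  rw [trace_eq_rank hy', trace_eq_rank hx, Complex.dist_eq] at hy
  have h2 : ((P y).rank : ℂ) - ((P x).rank : ℂ) = (((P y).rank : ℤ) - ((P x).rank : ℤ) : ℤ) := by
    push_cast; rfl
  rw [h2, Complex.norm_intCast] at hy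
  have h3 : |(((P y).rank : ℤ) - ((P x).rank : ℤ) : ℤ)| < 1 := by exact_mod_cast hy
  have := abs_lt.1 h3
  omega

theorem exists_sep (H : Matrix n n ℂ) : ∃ ε : ℝ, 0 < ε ∧ Sep ε H := by
  have hfin : {z : ℂ | (z • (1 : Matrix n n ℂ) - H).det = 0}.Finite := by
    refine (H.charpoly.roots.toFinset.finite_toSet).subset fun z hz => ?_
    simp only [Finset.mem_coe, Multiset.mem_toFinset]
    rw [Polynomial.mem_roots H.charpoly_monic.ne_zero, Polynomial.IsRoot, Matrix.eval_charpoly]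
    simpa [Matrix.smul_one_eq_diagonal] using hz
  have hev : ∀ᶠ ε : ℝ in 𝓝[>] 0, ∀ z ∈ {z : ℂ | (z • (1 : Matrix n n ℂ) - H).det = 0},
      z = 0 ∨ ε < ‖z‖ := by
    refine (eventually_all_finite hfin).2 fun z _ => ?_
    by_cases h0 : z = 0
    · exact Eventually.of_forall fun _ => Or.inl h0
    · exact ((gt_mem_nhds (norm_pos_iff.2 h0)).filter_mono nhdsWithin_le_nhds).mono
        fun _ h => Or.inr h
  obtain ⟨ε, h1, h2⟩ := (hev.and self_mem_nhdsWithin).exists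
  exact ⟨ε, h2, h1⟩

theorem rank_proj_add {ε : ℝ} (hε : 0 < ε) {H : Matrix n n ℂ} (h : Sep ε H) (h2 : Ker2 H) :
    H.rank + (proj ε H).rank = Fintype.card n := by
  have e : LinearMap.range (proj ε H).mulVecLin = LinearMap.ker H.mulVecLin := by
    ext v
    constructor
    · rintro ⟨w, rfl⟩
      simp only [LinearMap.mem_ker, Matrix.mulVecLin_apply, Matrix.mulVec_mulVec,
        mul_proj hε h h2, Matrix.zero_mulVec]
    · intro hv
      exact ⟨v, proj_mulVec_of_ker hε (h.gap hε) hv⟩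
  have := LinearMap.finrank_range_add_finrank_ker H.mulVecLin
  rw [Module.finrank_fintype_fun_eq_card, ← e] at this
  exact this

theorem sep_of_rank {ε : ℝ} (hε : 0 < ε) {H : Matrix n n ℂ} (h : Gap ε H)
    (hr : H.rank + (proj ε H).rank = Fintype.card n) : Sep ε H := by
  have e : LinearMap.ker H.mulVecLin = LinearMap.range (proj ε H).mulVecLin := by
    refine Submodule.eq_of_le_of_finrank_eq (fun v hv => ⟨v, proj_mulVec_of_ker hε h hv⟩) ?_
    have := LinearMap.finrank_range_add_finrank_ker H.mulVecLin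
    rw [Module.finrank_fintype_fun_eq_card] at this
    change H.rank + _ = _ at this
    change _ = (proj ε H).rank
    omega
  intro z hz
  obtain ⟨v, hv0, hv⟩ := Matrix.exists_mulVec_eq_zero_iff.2 hz
  have hv' : (H - z • 1) ^ 1 *ᵥ v = 0 := by
    rw [pow_one, ← neg_sub, Matrix.neg_mulVec, hv, neg_zero]
  have h1 := proj_mulVec_gen hε h hv'
  by_cases hz' : ‖z‖ < ε
  · left
    rw [if_pos hz'] at h1
    have h3 : v ∈ LinearMap.ker H.mulVecLin := e ▸ ⟨v, h1⟩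
    have h4 : H *ᵥ v = 0 := h3
    rw [Matrix.sub_mulVec, h4, sub_zero, Matrix.smul_mulVec, Matrix.one_mulVec] at hv
    exact (smul_eq_zero.1 hv).resolve_right hv0
  · exact Or.inr (lt_of_le_of_ne (not_lt.1 hz') fun e => h z e.symm hz)

/-- **local uniformity of the gap** -/
theorem sep_eventually {X : Type*} [TopologicalSpace X] {H : X → Matrix n n ℂ} {x : X}
    {F : Filter X} (hF : F ≤ 𝓝 x) (h : ∀ i j, ContinuousAt (fun y => H y i j) x) (h2 : Ker2 (H x))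
    (hr : ∀ᶠ y in F, (H y).rank = (H x).rank) {ε : ℝ} (hε : 0 < ε) (hx : Sep ε (H x)) :
    ∀ᶠ y in F, Sep ε (H y) := by
  have hg := (Gap.eventually h (hx.gap hε)).filter_mono hF
  have hp := rank_eventually (P := fun y => proj ε (H y)) hF
    (continuousAt_proj hε.le h (hx.gap hε)) (proj_mul_proj hε (hx.gap hε))
    (hg.mono fun y hy => proj_mul_proj hε hy)
  filter_upwards [hg, hp, hr] with y h1 h3 h4
  exact sep_of_rank hε h1 (by rw [h3, h4]; exact rank_proj_add hε hx h2)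

/-- **one `ε` on a compact set** on which the rank is locally constant -/
theorem exists_sep_compact {X : Type*} [TopologicalSpace X] {H : X → Matrix n n ℂ} {K : Set X}
    (hK : IsCompact K) (h : ∀ x ∈ K, ∀ i j, ContinuousAt (fun y => H y i j) x)
    (h2 : ∀ x ∈ K, Ker2 (H x)) (hr : ∀ x ∈ K, ∀ᶠ y in 𝓝[K] x, (H y).rank = (H x).rank) :
    ∃ ε : ℝ, 0 < ε ∧ ∀ x ∈ K, Sep ε (H x) := by
  refine hK.induction_on (p := fun s => ∃ ε : ℝ, 0 < ε ∧ ∀ x ∈ s, Sep ε (H x))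
    ⟨1, one_pos, fun _ h => h.elim⟩ (fun s t hst ⟨ε, hε, ht⟩ => ⟨ε, hε, fun x hx => ht x (hst hx)⟩)
    (fun s t ⟨ε, hε, hs⟩ ⟨ε', hε', ht⟩ => ⟨min ε ε', lt_min hε hε', fun x hx => hx.elim
      (fun h => (hs x h).mono (min_le_left _ _)) fun h => (ht x h).mono (min_le_right _ _)⟩) ?_
  intro x hx
  obtain ⟨ε, hε, hs⟩ := exists_sep (H x)
  exact ⟨_, sep_eventually nhdsWithin_le_nhds (h x hx) (h2 x hx) (hr x hx) hε hs, ε, hε,
    fun y hy => hy⟩

theorem Sep.conj {ε : ℝ} {H : Matrix n n ℂ} {H' : Matrix m m ℂ} (h : Sep ε H)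
    {T : Matrix m n ℂ} {S : Matrix n m ℂ} (hTS : T * S = 1) (hT : T * H = H' * T) :
    Sep ε H' := by
  intro z hz
  refine h z ?_
  by_contra h0
  have u1 : IsUnit (z • (1 : Matrix n n ℂ) - H).det := Ne.isUnit h0
  have e1 : (z • (1 : Matrix m m ℂ) - H') * T = T * (z • (1 : Matrix n n ℂ) - H) := by
    simp [Matrix.sub_mul, Matrix.mul_sub, hT]
  have e : (z • (1 : Matrix m m ℂ) - H') * (T * (z • (1 : Matrix n n ℂ) - H)⁻¹ * S) = 1 := by
    rw [← Matrix.mul_assoc, ← Matrix.mul_assoc, e1, Matrix.mul_assoc T,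
      Matrix.mul_nonsing_inv _ u1, Matrix.mul_one, hTS]
  exact (Matrix.isUnit_det_of_right_inverse e).ne_zero hz

/-! ### the operator `Ψ^* Ψ` -/

/-- `Ψ^* Ψ` for the Hermitian metrics `h`, `h'` -/
def lap (h : Matrix n n ℂ) (h' : Matrix m m ℂ) (Ψ : Matrix m n ℂ) : Matrix n n ℂ :=
  h⁻¹ * (Ψᴴ * h' * Ψ)

section lap
variable {h : Matrix n n ℂ} {h' : Matrix m m ℂ} {Ψ : Matrix m n ℂ}

theorem mul_lap (hh : h.PosDef) : h * lap h h' Ψ = Ψᴴ * h' * Ψ := by
  rw [lap, ← Matrix.mul_assoc, Matrix.mul_nonsing_inv _ hh.det_pos.ne'.isUnit, Matrix.one_mul]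

theorem lap_mulVec_iff (hh : h.PosDef) (hh' : h'.PosDef) (v : n → ℂ) :
    lap h h' Ψ *ᵥ v = 0 ↔ Ψ *ᵥ v = 0 := by
  constructor
  · intro hv
    by_contra h0
    have h1 := hh'.dotProduct_mulVec_pos h0
    have h2 : (Ψᴴ * h' * Ψ) *ᵥ v = 0 := by
      rw [← mul_lap hh, ← Matrix.mulVec_mulVec, hv, Matrix.mulVec_zero]
    have h3 : star (Ψ *ᵥ v) ⬝ᵥ (h' *ᵥ (Ψ *ᵥ v)) = star v ⬝ᵥ ((Ψᴴ * h' * Ψ) *ᵥ v) := by
      rw [Matrix.star_mulVec, ← Matrix.dotProduct_mulVec, Matrix.mulVec_mulVec,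
        Matrix.mulVec_mulVec]
    rw [h3, h2, dotProduct_zero] at h1
    exact lt_irrefl _ h1
  · intro hv
    rw [lap, ← Matrix.mulVec_mulVec, ← Matrix.mulVec_mulVec, hv, Matrix.mulVec_zero,
      Matrix.mulVec_zero]

theorem ker2_lap (hh : h.PosDef) (hh' : h'.PosDef) : Ker2 (lap h h' Ψ) := by
  intro v hv
  by_contra h0
  have h1 := hh.dotProduct_mulVec_pos h0
  have h2 : Ψ *ᵥ (lap h h' Ψ *ᵥ v) = 0 := (lap_mulVec_iff hh hh' _).1 hv
  have h3 : h *ᵥ (lap h h' Ψ *ᵥ v) = Ψᴴ *ᵥ (h' *ᵥ (Ψ *ᵥ v)) := by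
    rw [Matrix.mulVec_mulVec, mul_lap hh, Matrix.mulVec_mulVec, Matrix.mulVec_mulVec]
  rw [h3, Matrix.dotProduct_mulVec, ← Matrix.star_mulVec, h2, star_zero, zero_dotProduct] at h1
  exact lt_irrefl _ h1

theorem rank_lap (hh : h.PosDef) (hh' : h'.PosDef) : (lap h h' Ψ).rank = Ψ.rank := by
  have e : LinearMap.ker (lap h h' Ψ).mulVecLin = LinearMap.ker Ψ.mulVecLin := by
    ext v; exact lap_mulVec_iff hh hh' v
  have h1 := LinearMap.finrank_range_add_finrank_ker (lap h h' Ψ).mulVecLin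
  have h2 := LinearMap.finrank_range_add_finrank_ker Ψ.mulVecLin
  rw [e] at h1
  change (lap h h' Ψ).rank + _ = _ at h1
  change Ψ.rank + _ = _ at h2
  omega

/-- equivariance: `g`, `g'` isometries from `(h₁, h₁')` to `(h₂, h₂')` intertwining `Ψ₁`, `Ψ₂` -/
theorem lap_conj {h₁ h₂ g : Matrix n n ℂ} {h₁' h₂' g' : Matrix m m ℂ} {Ψ₁ Ψ₂ : Matrix m n ℂ}
    (hg : IsUnit g.det) (e : h₁ = gᴴ * h₂ * g) (e' : h₁' = g'ᴴ * h₂' * g')
    (eΨ : Ψ₂ * g = g' * Ψ₁) : g * lap h₁ h₁' Ψ₁ = lap h₂ h₂' Ψ₂ * g := by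
  have hgH : IsUnit gᴴ.det := by rw [Matrix.det_conjTranspose]; exact hg.star
  have e1 : Ψ₁ᴴ * h₁' * Ψ₁ = gᴴ * (Ψ₂ᴴ * h₂' * Ψ₂) * g := by
    calc Ψ₁ᴴ * h₁' * Ψ₁ = (g' * Ψ₁)ᴴ * h₂' * (g' * Ψ₁) := by
          simp only [e', Matrix.conjTranspose_mul, Matrix.mul_assoc]
      _ = _ := by simp only [← eΨ, Matrix.conjTranspose_mul, Matrix.mul_assoc]
  rw [lap, lap, e1, e, Matrix.mul_inv_rev, Matrix.mul_inv_rev]
  simp only [← Matrix.mul_assoc]
  rw [Matrix.mul_nonsing_inv _ hg, Matrix.one_mul, Matrix.mul_assoc h₂⁻¹ gᴴ⁻¹,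
    Matrix.nonsing_inv_mul _ hgH, Matrix.mul_one]

theorem contDiffAt_lap {E : Type*} [NormedAddCommGroup E] [NormedSpace ℝ E] {k : WithTop ℕ∞}
    {h : E → Matrix n n ℂ} {h' : E → Matrix m m ℂ} {Ψ : E → Matrix m n ℂ} {x : E}
    (c : ∀ i j, ContDiffAt ℝ k (fun y => h y i j) x) (c' : ∀ i j, ContDiffAt ℝ k (fun y => h' y i j) x)
    (cΨ : ∀ i j, ContDiffAt ℝ k (fun y => Ψ y i j) x) (h0 : (h x).det ≠ 0) (i j : n) :
    ContDiffAt ℝ k (fun y => lap (h y) (h' y) (Ψ y) i j) x := by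
  refine contDiffAt_mul (contDiffAt_inv c h0) (contDiffAt_mul (contDiffAt_mul ?_ c') cΨ) i j
  intro a b
  exact Complex.conjCLE.contDiff.contDiffAt.comp x (cΨ b a)

end lap

end Crest.Agent.X262.Syz
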