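import Crest.Agent.X262.Syz.Eqn3
import Crest.Agent.X262.Vb.Defs

/-!
# Row 262, road B (helper26): the target of a smooth multi-projective variety

* `fl y`, `Cut T y` : the equations of `T` generate the multihomogeneous ideal of `y`;
  `tgt y`, `cut_tgt`; `Cut.on`, `Cut.irr`, `Cut.on_iff`;
* `SmCh y` (smooth multi-charts), `Gen y` (the ratios generate the field), `cod y`;
* `Cut.smo`, `Cut.genPt`; `Smo.finrank_Nm`, `Smo.finrank_ker`.
-/

set_option autoImplicit false
set_option linter.unusedSectionVars false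

open MvPolynomial

noncomputable section

namespace Crest.Agent.X262.Syz

open Crest.Agent.X277.BD Crest.Agent.X262.Vb

variable {J : Type} [Fintype J] [DecidableEq J] {io : J → Type} [∀ j, Fintype (io j)]
  [∀ j, DecidableEq (io j)] {A : Type} [Fintype A] {K : Type} [Field K] [Algebra ℂ K]

/-- the coordinates as one family -/
abbrev fl {E : Type} (y : Pnt io E) : Vr io → E := fun v => y v.1 v.2

/-- the equations of `T` generate the multihomogeneous ideal of `y` -/
def Cut (T : Tgt io A) (y : Pnt io K) : Prop :=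
  Ideal.span (Set.range T.F) = hI ℂ Sigma.fst (fl y)

theorem exists_cut (y : Pnt io K) : ∃ (n : ℕ) (T : Tgt io (Fin n)), Cut T y := by
  obtain ⟨n, F, m, hm, hF⟩ := exists_eqns ℂ Sigma.fst (fl y)
  exact ⟨n, ⟨F, m, hm⟩, hF⟩

/-- the number of equations -/
def nEq (y : Pnt io K) : ℕ := (exists_cut y).choose

/-- the closure of the point `y` -/
def tgt (y : Pnt io K) : Tgt io (Fin (nEq y)) := (exists_cut y).choose_spec.choose

theorem cut_tgt (y : Pnt io K) : Cut (tgt y) y := (exists_cut y).choose_spec.choose_spec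

/-- all multi-charts are smooth -/
def SmCh (y : Pnt io K) : Prop :=
  ∀ c : J → Vr io, (∀ j, (c j).1 = j) → (∀ j, fl y (c j) ≠ 0) →
    Algebra.FormallySmooth ℂ (mchart ℂ Sigma.fst (fl y) c)

/-- the ratios generate the field -/
def Gen (y : Pnt io K) : Prop :=
  IntermediateField.adjoin ℂ {t | ∃ j i i', t = y j i / y j i'} = ⊤

/-- the codimension -/
def cod (y : Pnt io K) : ℕ := adim io - dim ℂ K

theorem nz_iff {E : Type} [Field E] (y : Pnt io E) :
    NZ y ↔ ∀ j, ∃ v : Vr io, v.1 = j ∧ fl y v ≠ 0 :=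
  forall_congr' fun j => ⟨fun ⟨i, hi⟩ => ⟨⟨j, i⟩, rfl, hi⟩, by
    rintro ⟨⟨_, i⟩, rfl, hi⟩
    exact ⟨i, hi⟩⟩

theorem finrank_Nm (T : Tgt io A) {E : Type} [Field E] [Algebra ℂ E] (y : Pnt io E) :
    Module.finrank E (T.Nm y) = (jac T.F (fl y)).rank := rfl

theorem adim_add {E : Type} [Field E] {y : Pnt io E} (hy : NZ y) :
    adim io + Fintype.card J = Fintype.card (Vr io) := by
  rw [adim, Fintype.card_sigma, Fintype.card, Finset.card_eq_sum_ones, ← Finset.sum_add_distrib]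
  refine Finset.sum_congr rfl fun j _ => Nat.sub_add_cancel ?_
  obtain ⟨i, -⟩ := hy j
  exact Fintype.card_pos_iff.2 ⟨i⟩

theorem Gen.isFractionRing {y : Pnt io K} (h : Gen y) {c : J → Vr io}
    (hy : ∀ j, fl y (c j) ≠ 0) : IsFractionRing (mchart ℂ Sigma.fst (fl y) c) K := by
  refine IsFractionRing.of_field _ _ fun z => ?_
  have h1 : z ∈ IntermediateField.adjoin ℂ (Set.range fun v : Vr io => fl y v / fl y (c v.1)) := by
    refine (IntermediateField.adjoin_le_iff.2 ?_ : IntermediateField.adjoin ℂ _ ≤ _)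
      (h.ge IntermediateField.mem_top)
    rintro _ ⟨j, i, i', rfl⟩
    rw [← div_div_div_cancel_right₀ (hy j) (y j i) (y j i')]
    exact div_mem (IntermediateField.subset_adjoin _ _ ⟨⟨j, i⟩, rfl⟩)
      (IntermediateField.subset_adjoin _ _ ⟨⟨j, i'⟩, rfl⟩)
  obtain ⟨r, hr, s, hs, e⟩ := IntermediateField.mem_adjoin_iff_div.1 h1
  exact ⟨⟨r, hr⟩, ⟨s, hs⟩, e⟩

namespace Cut

variable {T : Tgt io A} {y : Pnt io K}

theorem on (h : Cut T y) : T.On y := by
  classical
  exact fun a => aeval_eqn h a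

theorem mem (h : Cut T y) {q : MvPolynomial (Vr io) ℂ} {κ : J → ℕ} (hq : MH q κ)
    (h0 : pv y q = 0) : q ∈ Ideal.span (Set.range T.F) := h.ge (mem_hI hq h0)

theorem irr (h : Cut T y) {q : MvPolynomial (Vr io) ℂ} {κ : J → ℕ} (hq : MH q κ) (h0 : pv y q = 0)
    {E : Type} [Field E] [Algebra ℂ E] {η : Pnt io E} (hη : T.On η) : pv η q = 0 := by
  classical
  exact on_hI h hη (mem_hI hq h0)

theorem on_iff (h : Cut T y) {E : Type} [Field E] [Algebra ℂ E] {η : Pnt io E} :
    T.On η ↔ ∀ q κ, MH q κ → pv y q = 0 → pv η q = 0 :=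
  ⟨fun hη _ _ hq h0 => h.irr hq h0 hη, fun hη a => hη _ _ (T.hom a) (h.on a)⟩

theorem rank_add (h : Cut T y) (hy : NZ y) (hg : Gen y) :
    Module.finrank K (T.Nm y) + dim ℂ K = adim io := by
  classical
  choose c hc hc0 using (nz_iff _).1 hy
  have h1 := rank_jac_add T.hom h hc hc0 (hfr := hg.isFractionRing hc0)
  have h2 := adim_add hy
  rw [finrank_Nm]
  change _ + Module.finrank K _ = _
  omega

theorem dim_add (h : Cut T y) (hy : NZ y) (hg : Gen y) : dim ℂ K + cod y = adim io := by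
  have := h.rank_add hy hg
  unfold cod
  omega

theorem genPt (h : Cut T y) (hy : NZ y) (hg : Gen y) : GenPt T (cod y) y :=
  ⟨hy, h.on, hg, h.dim_add hy hg, fun _ _ hq h0 _ _ _ _ _ hη => h.irr hq h0 hη⟩

theorem smAt [DecidableEq A] (h : Cut T y) (hs : SmCh y) {E : Type} [Field E] [Algebra ℂ E]
    {η : Pnt io E} (hη : NZ η) (hT : T.On η) : ∃ S, SmAt T.F (fl η) S :=
  smAt_cone T.hom h hs ((nz_iff _).1 hη) hT

theorem finrank_Nm (h : Cut T y) (hy : NZ y) (hg : Gen y) (hs : SmCh y) {E : Type} [Field E]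
    [Algebra ℂ E] {η : Pnt io E} (hη : NZ η) (hT : T.On η) :
    Module.finrank E (T.Nm η) = cod y := by
  classical
  have h1 := h.rank_add hy hg
  rw [Syz.finrank_Nm] at h1 ⊢
  rw [rank_jac_eq T.hom h hs ((nz_iff _).1 hη) hT, cod]
  omega

/-- **the target is smooth** -/
theorem smo (h : Cut T y) (hy : NZ y) (hg : Gen y) (hs : SmCh y)
    (hc : ∃ q κ, q ≠ 0 ∧ MH q κ ∧ pv y q = 0) : Smo T (cod y) := by
  classical
  obtain ⟨r, ρ, e, hρ, he⟩ := exists_isSyz_nat T.F T.k T.hom
  refine ⟨?_, ⟨r, ρ, e, he, hρ.rel⟩, fun E _ _ η hη hT => ⟨h.finrank_Nm hy hg hs hη hT, ?_⟩⟩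
  · obtain ⟨q, κ, hq0, hq, h0⟩ := hc
    by_contra hn
    push Not at hn
    refine hq0 ((Ideal.span_le.2 ?_ : Ideal.span (Set.range T.F) ≤ ⊥) (h.mem hq h0))
    rintro _ ⟨a, rfl⟩
    exact hn a
  · intro σ hσ
    obtain ⟨S, hS⟩ := h.smAt hs hη hT
    exact (hρ.ker_iff hT hS σ).1 (funext hσ)

end Cut

/-- the normal space of a smooth target -/
theorem smo_finrank_Nm {T : Tgt io A} {c : ℕ} (h : Smo T c) {η : Pnt io K} (hη : NZ η)
    (hT : T.On η) : Module.finrank K (T.Nm η) = c := (h.2.choose_spec K η hη hT).1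

/-- the tangent space of the cone of a smooth target -/
theorem smo_finrank_ker {T : Tgt io A} {c : ℕ} (h : Smo T c) {η : Pnt io K} (hη : NZ η)
    (hT : T.On η) :
    Module.finrank K (LinearMap.ker (T.jac η)) + c = adim io + Fintype.card J := by
  rw [adim_add hη, ← smo_finrank_Nm h hη hT, add_comm, ← Module.finrank_fintype_fun_eq_card K]
  exact LinearMap.finrank_range_add_finrank_ker _

end Crest.Agent.X262.Syz
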